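/-
Row 210 (S0432), layer ID (identification of the frozen weak gradient with the minimal relaxed slope).
Architect: helper226.   Contract and proof: `git show origin/helper928:docs/R210_wave2.md` (section ID), map of the layer: header of `ID/Ifc.lean`.

THIS FILE = everything the layer uses from the other layers (RS, TP, CU, LI, CD, HF, KU), DISCHARGED from their `Ifc` files.
Leaves of ID use the lemmas `id_need_*` of this file (and, if convenient, any export of `RS/Ifc`, `TP/Ifc`, `HF/Ifc`: they are imported here).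
NEVER import GC, GCD, FO, EV, ... in this layer: they depend on ID.
The relaxed slopes enter only through the bundle `id_RS m Rel rs`  (`Rel f G` : "`G` is a relaxed slope of `f`", `rs f` : the minimal one);
its instance is `id_rs_inst : id_RS m (rs_IsRelaxed m) (rs_slope m)`.
-/
import Claimed.Agent.R210.Defs2
import Claimed.Agent.R210.RS.Ifc
import Claimed.Agent.R210.TP.Ifc
import Claimed.Agent.R210.LI.Ifc
import Claimed.Agent.R210.CD.Ifc
import Claimed.Agent.R210.HF.Ifc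
import Claimed.Agent.R210.KU.Ifc

set_option autoImplicit false
set_option linter.unusedSectionVars false

open Claims.C0366 Claims.C0366.WeakHessian
open Set Filter MeasureTheory
open scoped ENNReal NNReal Topology

namespace Claimed.Agent.R210.ID.Need

open Claimed.Agent.R210.Defs Claimed.Agent.R210.Defs2
open Claimed.Agent.R210.RS.Defs (rs_IsRelaxed rs_slope rs_lip rs_Adm rs_L2Lim rs_BddSupp)
open Claimed.Agent.R210.RS.Ifc Claimed.Agent.R210.TP.Defs Claimed.Agent.R210.TP.Ifc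
open Claimed.Agent.R210.LI.Defs (li_GeoSpace)
open Claimed.Agent.R210.LI.Ifc (li_superposition_A)
open Claimed.Agent.R210.HF.Defs (hf_phi hf_e)
open Claimed.Agent.R210.HF.Ifc

variable {X : Type*} [MetricSpace X] [MeasurableSpace X] [BorelSpace X] [CompleteSpace X]
  [TopologicalSpace.SeparableSpace X] [ProperSpace X]

/-- standing assumptions of the layer. -/
structure id_Base (m : Measure X) (o : X) (a : ℝ) : Prop where
  std : ∃ K N : ℝ, Std m K N
  good : GoodExp m o a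

/-- **what ID uses of the layer RS.**  `Rel f G` : `G` is a relaxed slope of `f`;  `rs f` : the relaxed slope of minimal norm. -/
structure id_RS (m : Measure X) (Rel : (X → ℝ) → (X → ℝ) → Prop) (rs : (X → ℝ) → X → ℝ) : Prop where
  /-- by definition -/
  memLp : ∀ {f G : X → ℝ}, Rel f G → MemLp f 2 m ∧ MemLp G 2 m
  nonneg : ∀ {f G : X → ℝ}, Rel f G → ∀ᵐ x ∂m, 0 ≤ G x
  /-- RS2 -/
  spec : ∀ {f : X → ℝ}, MemLp f 2 m → cheegerEnergy m f < ∞ → Rel f (rs f)
  energy_le : ∀ {f G : X → ℝ}, Rel f G → cheegerEnergy m f ≤ ENNReal.ofReal (1 / 2 * ∫ x, G x ^ 2 ∂m)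
  energy_eq : ∀ {f : X → ℝ}, MemLp f 2 m → cheegerEnergy m f < ∞ →
    cheegerEnergy m f = ENNReal.ofReal (1 / 2 * ∫ x, rs f x ^ 2 ∂m)
  /-- RS4' pointwise minimality -/
  min : ∀ {f G : X → ℝ}, Rel f G → ∀ᵐ x ∂m, rs f x ≤ G x
  /-- RS7 -/
  wug : ∀ {f G : X → ℝ}, Rel f G → IsLocalWeakUpperGradient m f G
  /-- RS4 -/
  add : ∀ {f G f' G' : X → ℝ}, Rel f G → Rel f' G' → Rel (fun x => f x + f' x) (fun x => G x + G' x)
  smul : ∀ {f G : X → ℝ} (c : ℝ), Rel f G → Rel (fun x => c * f x) (fun x => |c| * G x)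
  /-- RS5 -/
  mul_lip : ∀ {f G χ : X → ℝ}, Rel f G → LipB χ →
    Rel (fun x => χ x * f x) (fun x => |χ x| * G x + |f x| * (localSlope χ x).toReal)
  /-- trivial sequence -/
  lip : ∀ {χ : X → ℝ}, LipC χ → Rel χ (fun x => (localSlope χ x).toReal)

variable {m : Measure X}

theorem id_Base.finite {o : X} {a : ℝ} (hb : id_Base m o a) : FiniteOnBoundedSets m := by
  obtain ⟨K, N, hS⟩ := hb.std
  exact hS.finite

theorem id_Base.quad {o : X} {a : ℝ} (hb : id_Base m o a) : QuadraticCheegerEnergy m := by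
  obtain ⟨K, N, hS⟩ := hb.std
  exact hS.quad

/-- CD3 (upstream: helper269). -/
theorem id_Base.geo {o : X} {a : ℝ} (hb : id_Base m o a) : li_GeoSpace X := by
  obtain ⟨K, N, hS⟩ := hb.std
  exact fun x y => CD.Ifc.cd_geodesic hS x y

theorem id_Base.a_pos {o : X} {a : ℝ} (hb : id_Base m o a) : 0 < a := hb.good.1

/-! ### RS      -- upstream: RS (helper875), discharged -/

/-- the instance of the bundle. -/
theorem id_rs_inst (hfin : FiniteOnBoundedSets m) : id_RS m (rs_IsRelaxed m) (rs_slope m) where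
  memLp h := ⟨h.1, h.2.1⟩
  nonneg h := rs_relaxed_nonneg h
  spec _ h := rs_slope_isRelaxed h
  energy_le {f G} h := by
    have := rs_cheeger_le_of_relaxed h
    rwa [show (∫ x, G x ^ 2 ∂m) / 2 = 1 / 2 * ∫ x, G x ^ 2 ∂m by ring] at this
  energy_eq {f} _ h := by
    have := rs_cheeger_eq h
    rwa [show (∫ x, rs_slope m f x ^ 2 ∂m) / 2 = 1 / 2 * ∫ x, rs_slope m f x ^ 2 ∂m by ring] at this
  min h := rs_slope_le_of_relaxed h
  wug h := rs_relaxed_wug h
  add h h' := rs_relaxed_add h h'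
  smul c h := rs_relaxed_const_mul c h
  mul_lip {f G χ} h hχ := by
    have := rs_relaxed_mul hχ.1 hχ.2 h
    have he : (fun x => f x * χ x) = fun x => χ x * f x := by
      funext x
      exact mul_comm _ _
    rw [he] at this
    exact this
  lip {χ} hχ := by
    have hs : rs_BddSupp χ := tp_bddSupp_of_hasCompactSupport hχ.2
    exact rs_relaxed_of_adm ⟨hχ.1, rs_memLp_of_bddSupp hfin hχ.1 hs, rs_memLp_lip_of_bddSupp hfin hχ.1 hs,
      Eventually.of_forall fun x => ⟨rs_lip_nonneg χ x, (rs_ofReal_lip hχ.1 x).ge⟩⟩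

theorem id_need_rs (hfin : FiniteOnBoundedSets m) :
    ∃ (Rel : (X → ℝ) → (X → ℝ) → Prop) (rs : (X → ℝ) → X → ℝ), id_RS m Rel rs :=
  ⟨_, _, id_rs_inst hfin⟩

/-- RS1: `L²` lower semicontinuity of the frozen Cheeger energy. -/
theorem id_need_ch_lsc {f : X → ℝ} {fs : ℕ → X → ℝ} (hf : MemLp f 2 m)
    (h : Tendsto (fun n => eLpNorm (fun x => fs n x - f x) 2 m) atTop (𝓝 0)) :
    cheegerEnergy m f ≤ Filter.liminf (fun n => cheegerEnergy m (fs n)) atTop :=
  rs_cheeger_le_liminf hf h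

/-- RS1: 2-homogeneity (finite energy). -/
theorem id_need_ch_smul {f : X → ℝ} (c : ℝ) (h : cheegerEnergy m f < ∞) :
    cheegerEnergy m (fun x => c * f x) = ENNReal.ofReal (c ^ 2) * cheegerEnergy m f :=
  rs_cheeger_const_mul c h

/-- RS1. -/
theorem id_need_ch_congr {f g : X → ℝ} (h : f =ᵐ[m] g) : cheegerEnergy m f = cheegerEnergy m g :=
  rs_cheeger_congr h

/-! ### HF  (`ρ_s = heatF m s ρ`)      -- upstream: HF (helper897, helper309), discharged -/

section HF

variable {o : X} {a B : ℝ} {ρ : X → ℝ}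

theorem id_need_nice_memLp (hb : id_Base m o a) (hρ : NiceDens m o a B ρ) : MemLp ρ 2 m :=
  hf3_nice_memLp hb.a_pos.le hρ

theorem id_need_heat_memLp (s : ℝ) (ρ : X → ℝ) : MemLp (heatF m s ρ) 2 m := hf0_heatF_memLp m s ρ

/-- `H_0 = id`. -/
theorem id_need_heat_zero (hρ : MemLp ρ 2 m) : heatF m 0 ρ =ᵐ[m] ρ := hf0_heat_of_nonpos le_rfl hρ

/-- HF1 + HF2 + HF3. -/
theorem id_need_nice_heat (hb : id_Base m o a) (hρ : NiceDens m o a B ρ) {s : ℝ} (hs : 0 ≤ s) :
    NiceDens m o a B (heatF m s ρ) :=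
  hf3_heat_nice hb.finite hb.quad hb.good hs hρ

/-- HF4 (a) + convexity of `e_η` + Fatou/lsc as `η → 0`. -/
theorem id_need_fisher_le (hb : id_Base m o a) (hρ : NiceDens m o a B ρ) {t : ℝ} (ht : 0 ≤ t) {C : ℝ≥0∞}
    (h : ∀ η : ℝ, 0 < η →
      ENNReal.ofReal (∫ x, (Real.log (ρ x + η) - Real.log η) * (ρ x - heatF m t ρ x) ∂m) ≤ C) :
    ∫⁻ s in Icc (0 : ℝ) t, fisher m (heatF m s ρ) ≤ C := by
  rcases eq_or_ne C ∞ with rfl | hC
  · exact le_top
  have h2 := id_need_nice_memLp hb hρ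
  have key : ∫⁻ s in Ioc (0 : ℝ) t, fisher m (heatF m s ρ) ≤ ENNReal.ofReal C.toReal := by
    refine hf4_fisher_int_le_of hb.finite hb.quad hb.good hρ ht fun n => ?_
    have hη : (0 : ℝ) < 1 / ((n : ℝ) + 1) := by positivity
    refine (hf4_Phi_convex hη h2 (id_need_heat_memLp t ρ)).trans ?_
    have he : ∫ x, hf_phi (1 / ((n : ℝ) + 1)) (ρ x) * (ρ x - heatF m t ρ x) ∂m
        = ∫ x, (Real.log (ρ x + 1 / ((n : ℝ) + 1)) - Real.log (1 / ((n : ℝ) + 1))) * (ρ x - heatF m t ρ x) ∂m := by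
      refine integral_congr_ae ?_
      filter_upwards [hρ.nonneg] with x hx
      rw [hf4_phi_of_nonneg hη hx]
    rw [he]
    exact (ENNReal.ofReal_le_iff_le_toReal hC).1 (h _ hη)
  rw [ENNReal.ofReal_toReal hC] at key
  rwa [setLIntegral_congr (Ioc_ae_eq_Icc (μ := volume) (a := (0 : ℝ)) (b := t)).symm]

/-- HF4 (b). -/
theorem id_need_fisher_fin (hb : id_Base m o a) (hρ : NiceDens m o a B ρ) (t : ℝ) :
    ∫⁻ s in Icc (0 : ℝ) t, fisher m (heatF m s ρ) < ∞ := by
  rcases le_or_gt 0 t with ht | ht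
  · rw [setLIntegral_congr (Ioc_ae_eq_Icc (μ := volume) (a := (0 : ℝ)) (b := t)).symm]
    exact (hf4_fisher_int_le hb.finite hb.quad hb.good hρ ht).trans_lt ENNReal.ofReal_lt_top
  · simp [Icc_eq_empty (not_le.2 ht)]

/-- HF4: measurability in time. -/
theorem id_need_fisher_meas (hb : id_Base m o a) (hρ : NiceDens m o a B ρ) :
    Measurable (fun s : ℝ => fisher m (heatF m s ρ)) :=
  (hf4_fisher_lsc hb.finite hb.quad hb.good hρ).measurable

/-- HF4: lower semicontinuity at `0+`. -/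
theorem id_need_fisher_lsc (hb : id_Base m o a) (hρ : NiceDens m o a B ρ) {c : ℝ≥0∞} (hc : c < fisher m ρ) :
    ∀ᶠ s in 𝓝[>] (0 : ℝ), c < fisher m (heatF m s ρ) := by
  have h0 : fisher m (heatF m 0 ρ) = fisher m ρ := by
    show 8 * cheegerEnergy m _ = 8 * cheegerEnergy m _
    congr 1
    refine rs_cheeger_congr ?_
    filter_upwards [id_need_heat_zero (id_need_nice_memLp hb hρ)] with x hx
    rw [hx]
  have := hf4_fisher_lsc hb.finite hb.quad hb.good hρ 0 c (by show c < fisher m (heatF m 0 ρ); rw [h0]; exact hc)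
  exact this.filter_mono nhdsWithin_le_nhds

/-- HF6. -/
theorem id_need_heat_L1 (hb : id_Base m o a) (hρ : NiceDens m o a B ρ) :
    Tendsto (fun s : ℝ => ∫⁻ x, ENNReal.ofReal |heatF m s ρ x - ρ x| ∂m) (𝓝[>] (0 : ℝ)) (𝓝 0) := by
  have h2 := id_need_nice_memLp hb hρ
  have := (hf6_heat_cont_l1 hb.finite hb.quad hb.good h2 (hf3_nice_wn hρ) 0).mono_left
    (nhdsWithin_le_nhds (s := Ioi (0 : ℝ)))
  refine this.congr fun s => ?_
  rw [eLpNorm_one_eq_lintegral_enorm]
  refine lintegral_congr_ae ?_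
  filter_upwards [id_need_heat_zero h2] with x hx
  rw [hx, Real.enorm_eq_ofReal_abs]

/-! ### KU      -- upstream: KU (helper926), discharged -/

/-- KU2. -/
theorem id_need_KU2 (hb : id_Base m o a) (hρ : NiceDens m o a B ρ) {s t : ℝ} (hs : 0 ≤ s) (hst : s ≤ t) :
    W2sq (dens m (heatF m s ρ)) (dens m (heatF m t ρ))
      ≤ ENNReal.ofReal (t - s) * ∫⁻ r in Icc s t, fisher m (heatF m r ρ) := by
  obtain ⟨K, N, hS⟩ := hb.std
  exact KU.Ifc.ku2' hS hb.good hρ hs hst

end HF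

/-! ### LI      -- upstream: LI (helper332), discharged -/

/-- LI1'. -/
theorem id_need_LI1 (hgeo : li_GeoSpace X) (μ : ℝ → Measure X)
    (hprob : ∀ t ∈ Icc (0 : ℝ) 1, IsProbabilityMeasure (μ t)) (A : ℝ → ℝ≥0∞) (hA : Measurable A)
    (hAfin : ∫⁻ t in Icc (0 : ℝ) 1, A t < ∞)
    (hW : ∀ s t : ℝ, 0 ≤ s → s < t → t ≤ 1 →
      W2sq (μ s) (μ t) ≤ ENNReal.ofReal (t - s) * ∫⁻ r in Icc s t, A r) :
    ∃ π : Measure (Curve X), IsProbabilityMeasure π ∧
      (∀ t : Time, Measure.map (fun γ : Curve X => γ t) π = μ (t : ℝ)) ∧ (∀ᵐ γ ∂π, IsAC2 γ) ∧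
      ∫⁻ γ, ∫⁻ t in Icc (0 : ℝ) 1, (metricSpeed γ t) ^ 2 ∂volume ∂π ≤ ∫⁻ t in Icc (0 : ℝ) 1, A t :=
  li_superposition_A hgeo (fun t => μ (t : ℝ)) (fun t => hprob _ t.2) A hA hAfin
    fun s t hst => hW _ _ s.2.1 hst t.2.2

/-! ### TP      -- upstream: TP (helper661), discharged -/

/-- TP2: a weak upper gradient exists ⟹ a minimal one exists. -/
theorem id_need_TP2 (hfin : FiniteOnBoundedSets m) {f D : X → ℝ} (hf : LocallyL2 m f)
    (hD : IsLocalWeakUpperGradient m f D) : LocalSobolev m f :=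
  tp_localSobolev_of_wug hfin hf hD

/-- TP3: chain rule (inequality), `ψ` differentiable with bounded derivative. -/
theorem id_need_chain (hfin : FiniteOnBoundedSets m) {v : X → ℝ} (hv : LocalSobolev m v) {ψ ψ' : ℝ → ℝ}
    (hψ : ∀ s, HasDerivAt ψ (ψ' s) s) {L : ℝ} (hL : ∀ s, |ψ' s| ≤ L) :
    LocalSobolev m (fun x => ψ (v x)) ∧
      ∀ᵐ x ∂m, weakGradient m (fun x => ψ (v x)) x ≤ |ψ' (v x)| * weakGradient m v x := by
  have hlip : LipschitzWith L.toNNReal ψ := by
    refine lipschitzWith_of_nnnorm_deriv_le (fun s => (hψ s).differentiableAt) fun s => ?_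
    rw [(hψ s).deriv, ← NNReal.coe_le_coe, coe_nnnorm, Real.norm_eq_abs]
    exact (hL s).trans (Real.le_coe_toNNReal L)
  refine ⟨tp_localSobolev_comp_lipschitz hfin hv hlip, ?_⟩
  filter_upwards [tp_weakGradient_comp_lipschitz hfin hv hlip] with x hx
  rw [hx, (hψ (v x)).deriv]

/-- TP3 + TP4: Leibniz inequality, one factor Lipschitz. -/
theorem id_need_leibniz (hfin : FiniteOnBoundedSets m) {g χ : X → ℝ} (hg : LocalSobolev m g)
    (hχ : GloballyLipschitz χ) :
    LocalSobolev m (fun x => χ x * g x) ∧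
      ∀ᵐ x ∂m, weakGradient m (fun x => χ x * g x) x
        ≤ |χ x| * weakGradient m g x + |g x| * (localSlope χ x).toReal := by
  obtain ⟨L, hL⟩ := hχ
  have hχ' : tp_LipOnBdd χ := tp_lipOnBdd_of_lipschitz hL
  obtain ⟨h1, h2⟩ := tp_localSobolev_lip_mul hfin hg hχ'
  refine ⟨h1, ?_⟩
  filter_upwards [h2, tp_weakGradient_le_localSlope hfin hχ'] with x hx hx'
  refine hx.trans ?_
  have h3 : weakGradient m χ x ≤ (localSlope χ x).toReal := by
    rw [← rs_ofReal_lip ⟨L, hL⟩ x] at hx'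
    exact (ENNReal.ofReal_le_ofReal_iff (rs_lip_nonneg χ x)).1 hx'
  gcongr

/-- TP3: homogeneity. -/
theorem id_need_grad_smul (hfin : FiniteOnBoundedSets m) {f : X → ℝ} (hf : LocalSobolev m f) (c : ℝ) :
    LocalSobolev m (fun x => c * f x) ∧
      ∀ᵐ x ∂m, weakGradient m (fun x => c * f x) x = |c| * weakGradient m f x :=
  ⟨tp_localSobolev_const_mul hfin c hf, tp_weakGradient_const_mul m c f⟩

/-- TP3: locality. -/
theorem id_need_local {u w : X → ℝ} (hu : LocalSobolev m u) (hw : LocalSobolev m w) :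
    ∀ᵐ x ∂m, u x = w x → weakGradient m u x = weakGradient m w x :=
  tp_weakGradient_locality hu hw

/-- TP0. -/
theorem id_need_grad_nonneg (m : Measure X) (f : X → ℝ) : ∀ᵐ x ∂m, 0 ≤ weakGradient m f x :=
  tp_weakGradient_nonneg m f

/-- TP0. -/
theorem id_need_grad_locallyL2 (m : Measure X) (f : X → ℝ) : LocallyL2 m (weakGradient m f) :=
  tp_weakGradient_locallyL2 m f

/-- TP0. -/
theorem id_need_aesm {f : X → ℝ} (hf : LocallyL2 m f) : AEStronglyMeasurable f m :=
  tp_aestronglyMeasurable hf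

/-- TP3: constants (equality of functions). -/
theorem id_need_grad_add_const (m : Measure X) (f : X → ℝ) (c : ℝ) :
    weakGradient m (fun x => f x + c) = weakGradient m f :=
  tp_weakGradient_add_const m f c

theorem id_need_localSobolev_add_const (hfin : FiniteOnBoundedSets m) {f : X → ℝ} (hf : LocalSobolev m f) (c : ℝ) :
    LocalSobolev m (fun x => f x + c) :=
  tp_localSobolev_add_const hfin hf c

/-- TP3: truncation. -/
theorem id_need_clamp (hfin : FiniteOnBoundedSets m) {f : X → ℝ} (hf : LocalSobolev m f) (a b : ℝ) :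
    LocalSobolev m (fun x => max a (min b (f x))) ∧
      ∀ᵐ x ∂m, weakGradient m (fun x => max a (min b (f x))) x ≤ weakGradient m f x :=
  ⟨tp_localSobolev_clamp hfin hf a b, tp_weakGradient_clamp_le hfin hf a b⟩

/-! ### CU      -- upstream: CU (helper118) through TP/Ifc, discharged -/

/-- CU1. -/
theorem id_need_meas_eval : Measurable (fun p : Curve X × ℝ => evalReal p.1 p.2) :=
  tp_measurable_evalReal

/-- CU1. -/
theorem id_need_meas_eval_time (t : Time) : Measurable (fun γ : Curve X => γ t) :=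
  tp_measurable_eval t

/-- CU1. -/
theorem id_need_evalReal_coe (γ : Curve X) (t : Time) : evalReal γ (t : ℝ) = γ t :=
  tp_evalReal_coe γ t

/-- CU2. -/
theorem id_need_meas_speed : Measurable (fun p : Curve X × ℝ => metricSpeed p.1 p.2) :=
  tp_measurable_metricSpeed

/-- CU6: normalised restriction of a test plan. -/
theorem id_need_restrict {π : Measure (Curve X)} (hπ : IsTestPlan m π) {Γ : Set (Curve X)}
    (hpos : π Γ ≠ 0) : IsTestPlan m ((π Γ)⁻¹ • π.restrict Γ) :=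
  tp_testPlan_normalize hπ hpos

/-- CU7: `m`-null sets are not seen by a test plan. -/
theorem id_need_ae_along {π : Measure (Curve X)} (hπ : IsTestPlan m π) {P : X → Prop} (hP : ∀ᵐ x ∂m, P x) :
    ∀ᵐ γ ∂π, ∀ᵐ r ∂(volume.restrict (Icc (0 : ℝ) 1)), P (evalReal γ r) :=
  tp_ae_ae_eval hπ hP

/-! ### CD      -- upstream: CD2 (helper269), discharged -/

/-- CD2: exponential volume growth. -/
theorem id_need_growth {K N : ℝ} (hS : Std m K N) : ∃ C c : ℝ, 0 < C ∧ 0 < c ∧ ∀ x : X, ∀ R : ℝ,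
    m (Metric.closedBall x R) ≤ ENNReal.ofReal (C * Real.exp (c * R)) * m (Metric.closedBall x 1) :=
  CD.Ifc.cd_growth hS

end Claimed.Agent.R210.ID.Need
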