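/-
Row 210 (S0432), layer ID, architect helper226.   Existence of an admissible exponent (`GoodExp`) from the exponential volume growth CD2.
Map of the layer: header of `ID/Ifc.lean`.
-/
import Claimed.Agent.R210.ID.Need

set_option autoImplicit false
set_option linter.unusedSectionVars false

open Claims.C0366 Claims.C0366.WeakHessian
open Set Filter MeasureTheory
open scoped ENNReal NNReal Topology

namespace Claimed.Agent.R210.ID.Exp

open Claimed.Agent.R210.Defs Claimed.Agent.R210.Defs2 Claimed.Agent.R210.ID.Need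

variable {X : Type*} [MetricSpace X] [MeasurableSpace X] [BorelSpace X] [CompleteSpace X]
  [TopologicalSpace.SeparableSpace X] [ProperSpace X] {m : Measure X}

/-- measure theory: exponential growth of the balls ⟹ `e^{-(c+1) d(·,o)}` is integrable.
Proof: `∫⁻ ofReal (e^{-(c+1) d}) ≤ ∑' k, ∫⁻_{A_k} …`, `A_k = {x | k ≤ d(x,o) < k+1}` (or: pointwise `e^{-(c+1) d(x)} ≤ ∑' k, e^{-(c+1) k} 1_{closedBall o (k+1) \ ball o k}(x)`, `lintegral_tsum`),
`∫⁻_{A_k} ≤ ofReal (e^{-(c+1) k}) m (closedBall o (k+1)) ≤ ofReal (e^{-(c+1)k} C e^{c (k+1)}) M = ofReal (C e^c) M ofReal (e^{-k})`, geometric series (`Real.summable_exp_neg_nat`-like, `ENNReal.ofReal_tsum_of_nonneg`). -/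
theorem id_integrable_exp (o : X) {C c : ℝ} (hC : 0 < C) (hc : 0 < c) {M : ℝ≥0∞} (hM : M < ∞)
    (h : ∀ R : ℝ, m (Metric.closedBall o R) ≤ ENNReal.ofReal (C * Real.exp (c * R)) * M) :
    Integrable (fun x => Real.exp (-(c + 1) * dist x o)) m := by
  have hcont : Continuous (fun x => Real.exp (-(c + 1) * dist x o)) := by fun_prop
  refine ⟨hcont.aestronglyMeasurable, ?_⟩
  rw [hasFiniteIntegral_iff_enorm]
  have hpt : ∀ x, ‖Real.exp (-(c + 1) * dist x o)‖ₑ ≤
      ∑' k : ℕ, (Metric.closedBall o ((k : ℝ) + 1)).indicator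
        (fun _ => ENNReal.ofReal (Real.exp (-(c + 1) * k))) x := by
    intro x
    refine le_trans ?_ (ENNReal.le_tsum ⌊dist x o⌋₊)
    have h1 : (⌊dist x o⌋₊ : ℝ) ≤ dist x o := Nat.floor_le dist_nonneg
    have h2 : dist x o < (⌊dist x o⌋₊ : ℝ) + 1 := Nat.lt_floor_add_one _
    rw [indicator_of_mem (by simpa [Metric.mem_closedBall] using h2.le)]
    rw [Real.enorm_eq_ofReal (Real.exp_pos _).le]
    refine ENNReal.ofReal_le_ofReal (Real.exp_le_exp.2 ?_)
    have : 0 < c + 1 := by linarith
    nlinarith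
  have hsum : Summable (fun k : ℕ => C * Real.exp c * Real.exp (-(k : ℝ))) :=
    Real.summable_exp_neg_nat.mul_left _
  calc ∫⁻ x, ‖Real.exp (-(c + 1) * dist x o)‖ₑ ∂m
      ≤ ∫⁻ x, ∑' k : ℕ, (Metric.closedBall o ((k : ℝ) + 1)).indicator
        (fun _ => ENNReal.ofReal (Real.exp (-(c + 1) * k))) x ∂m := lintegral_mono hpt
    _ = ∑' k : ℕ, ∫⁻ x, (Metric.closedBall o ((k : ℝ) + 1)).indicator
        (fun _ => ENNReal.ofReal (Real.exp (-(c + 1) * k))) x ∂m := by
        refine lintegral_tsum fun k => ?_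
        exact (measurable_const.indicator Metric.isClosed_closedBall.measurableSet).aemeasurable
    _ = ∑' k : ℕ, ENNReal.ofReal (Real.exp (-(c + 1) * k)) * m (Metric.closedBall o ((k : ℝ) + 1)) := by
        congr 1
        funext k
        rw [lintegral_indicator_const Metric.isClosed_closedBall.measurableSet]
    _ ≤ ∑' k : ℕ, ENNReal.ofReal (C * Real.exp c * Real.exp (-(k : ℝ))) * M := by
        refine ENNReal.tsum_le_tsum fun k => ?_
        calc ENNReal.ofReal (Real.exp (-(c + 1) * k)) * m (Metric.closedBall o ((k : ℝ) + 1))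
            ≤ ENNReal.ofReal (Real.exp (-(c + 1) * k)) *
              (ENNReal.ofReal (C * Real.exp (c * ((k : ℝ) + 1))) * M) := by gcongr; exact h _
          _ = ENNReal.ofReal (C * Real.exp c * Real.exp (-(k : ℝ))) * M := by
              rw [← mul_assoc, ← ENNReal.ofReal_mul (Real.exp_pos _).le]
              congr 2
              have : Real.exp (-(c + 1) * k) * (C * Real.exp (c * ((k : ℝ) + 1))) =
                  C * (Real.exp (-(c + 1) * k) * Real.exp (c * ((k : ℝ) + 1))) := by ring
              rw [this, ← Real.exp_add, mul_assoc, ← Real.exp_add]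
              congr 2
              ring
    _ = (∑' k : ℕ, ENNReal.ofReal (C * Real.exp c * Real.exp (-(k : ℝ)))) * M := ENNReal.tsum_mul_right
    _ = ENNReal.ofReal (∑' k : ℕ, C * Real.exp c * Real.exp (-(k : ℝ))) * M := by
        rw [ENNReal.ofReal_tsum_of_nonneg (fun k => by positivity) hsum]
    _ < ∞ := ENNReal.mul_lt_top ENNReal.ofReal_lt_top hM

/-- CD2 ⟹ `GoodExp`. -/
theorem id_goodExp {K N : ℝ} (hS : Std m K N) (o : X) : ∃ a : ℝ, GoodExp m o a := by
  obtain ⟨C, c, hC, hc, h⟩ := id_need_growth hS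
  refine ⟨4 * (c + 1), by positivity, ?_⟩
  have := id_integrable_exp o hC hc (hS.finite _ Metric.isBounded_closedBall) (h o)
  have he : (fun x => Real.exp (-(4 * (c + 1) / 4) * dist x o)) = fun x => Real.exp (-(c + 1) * dist x o) := by
    funext x
    congr 1
    ring
  rw [he]
  exact this

end Claimed.Agent.R210.ID.Exp
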