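/-
Row 210 (S0432), layer ID, architect helper226.   The cut-off functions `id_cut o r = max 0 (min 1 (r - d(·,o)))`.
Map of the layer: header of `ID/Ifc.lean`.      (metric spaces only; frozen notion used: `localSlope`)
-/
import Claimed.Agent.R210.Defs

set_option autoImplicit false
set_option linter.unusedSectionVars false

open Claims.C0366 Claims.C0366.WeakHessian
open Set Filter MeasureTheory
open scoped ENNReal NNReal Topology

namespace Claimed.Agent.R210.ID.BackA

open Claimed.Agent.R210.Defs

variable {X : Type*} [MetricSpace X] [MeasurableSpace X] [BorelSpace X]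

/-- cut-off: `1` on `closedBall o (r-1)`, `0` off `ball o r`, 1-Lipschitz. -/
noncomputable def id_cut (o : X) (r : ℝ) (x : X) : ℝ := max 0 (min 1 (r - dist x o))

theorem id_cut_mem (o : X) (r : ℝ) (x : X) : 0 ≤ id_cut o r x ∧ id_cut o r x ≤ 1 :=
  ⟨le_max_left _ _, max_le zero_le_one (min_le_left _ _)⟩

theorem id_cut_eq_one {o : X} {r : ℝ} {x : X} (h : dist x o ≤ r - 1) : id_cut o r x = 1 := by
  unfold id_cut
  rw [min_eq_left (by linarith), max_eq_right zero_le_one]

theorem id_cut_eq_zero {o : X} {r : ℝ} {x : X} (h : r ≤ dist x o) : id_cut o r x = 0 := by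
  unfold id_cut
  exact max_eq_left ((min_le_right _ _).trans (by linarith))

theorem id_cut_lipschitz (o : X) (r : ℝ) : LipschitzWith 1 (id_cut o r) := by
  have h1 : LipschitzWith 1 (fun x : X => dist x o) := LipschitzWith.dist_left o
  have h2 : LipschitzWith 1 (fun x : X => r - dist x o) := by
    refine LipschitzWith.of_dist_le_mul fun x y => ?_
    have := h1.dist_le_mul x y
    rw [Real.dist_eq] at this ⊢
    rw [show r - dist x o - (r - dist y o) = -(dist x o - dist y o) by ring, abs_neg]
    exact this
  exact (h2.const_min 1).const_max 0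

theorem id_cut_lipB (o : X) (r : ℝ) : LipB (id_cut o r) := by
  refine ⟨⟨1, id_cut_lipschitz o r⟩, ⟨1, fun x => ?_⟩⟩
  rw [abs_of_nonneg (id_cut_mem o r x).1]
  exact (id_cut_mem o r x).2

/-- proper space: the support lies in the compact `closedBall o r`  (`HasCompactSupport.intro (isCompact_closedBall o r)`). -/
theorem id_cut_lipC [ProperSpace X] (o : X) (r : ℝ) : LipC (id_cut o r) := by
  refine ⟨⟨1, id_cut_lipschitz o r⟩, HasCompactSupport.intro (isCompact_closedBall o r) fun x hx => ?_⟩
  apply id_cut_eq_zero
  rw [Metric.mem_closedBall, not_le] at hx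
  exact hx.le

/-- locally constant ⟹ slope `0`   (`{y | dist y o < r - 1}` is an open neighbourhood of `x` on which `id_cut o r = 1`; the `limsup` of a function which is eventually `0`). -/
theorem id_cut_slope_zero {o : X} {r : ℝ} {x : X} (h : dist x o < r - 1) : localSlope (id_cut o r) x = 0 := by
  unfold localSlope
  have hopen : IsOpen {y : X | dist y o < r - 1} := isOpen_lt (continuous_id.dist continuous_const) continuous_const
  have hev : ∀ᶠ y in 𝓝[≠] x, ENNReal.ofReal (|id_cut o r y - id_cut o r x| / dist y x) = 0 := by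
    filter_upwards [nhdsWithin_le_nhds (hopen.mem_nhds h)] with y hy
    have hy' : dist y o < r - 1 := hy
    rw [id_cut_eq_one hy'.le, id_cut_eq_one h.le]
    simp
  refine le_antisymm ?_ bot_le
  exact Filter.limsup_le_of_le (by isBoundedDefault) (hev.mono fun y hy => hy.le)

/-- 1-Lipschitz ⟹ `localSlope ≤ 1`. -/
theorem id_cut_slope_le (o : X) (r : ℝ) (x : X) : (localSlope (id_cut o r) x).toReal ≤ 1 := by
  have h : localSlope (id_cut o r) x ≤ 1 := by
    unfold localSlope
    refine Filter.limsup_le_of_le (by isBoundedDefault) ?_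
    filter_upwards [self_mem_nhdsWithin] with y hy
    have hd : 0 < dist y x := dist_pos.2 hy
    rw [← ENNReal.ofReal_one]
    apply ENNReal.ofReal_le_ofReal
    rw [div_le_iff₀ hd, ← Real.dist_eq]
    have := (id_cut_lipschitz o r).dist_le_mul y x
    simpa using this
  have := ENNReal.toReal_mono ENNReal.one_ne_top h
  simpa using this

end Claimed.Agent.R210.ID.BackA
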