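/-
Row 210 (S0432), layer ID, architect helper226.   Real analysis: divide by `t`, let `t → 0`.
Map of the layer: header of `ID/Ifc.lean`.      (no metric measure space here)
-/
import Mathlib

set_option autoImplicit false

open Set Filter MeasureTheory
open scoped ENNReal NNReal Topology

namespace Claimed.Agent.R210.ID.CoreA

/-- Proof.  Enough: `c ≤ B0 + ε` for all `c < F0`, `ε > 0` (`le_of_forall_lt_imp_le_of_dense`/`le_of_forall_lt`, `ENNReal.le_of_forall_pos_le_add`).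
Choose `δ > 0` with `c < F s` and `Bb s ≤ B0 + ε` for `s ∈ (0, δ)` (`mem_nhdsGT_iff_exists_Ioo_subset`), `t = δ/2`.
`c * ofReal t = ∫⁻ s in Icc 0 t, c ≤ ∫⁻ s in Icc 0 t, F s` (a.e. `s ≠ 0`; `lintegral_mono_ae` needs no measurability),
`∫⁻ r in Icc 0 1, Bb (r * t) ≤ ∫⁻ r in Icc 0 1, (B0 + ε) = B0 + ε` (a.e. `r ≠ 0`, `0 < r * t ≤ t < δ`).   Cancel `ofReal t ∉ {0, ∞}`. -/
theorem id_limit_abstract {F Bb : ℝ → ℝ≥0∞} {F0 B0 : ℝ≥0∞}
    (hstep : ∀ t : ℝ, 0 < t → ∫⁻ s in Icc (0 : ℝ) t, F s ≤ ENNReal.ofReal t * ∫⁻ r in Icc (0 : ℝ) 1, Bb (r * t))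
    (hlsc : ∀ c < F0, ∀ᶠ s in 𝓝[>] (0 : ℝ), c < F s)
    (hcont : ∀ ε : ℝ≥0∞, 0 < ε → ∀ᶠ s in 𝓝[>] (0 : ℝ), Bb s ≤ B0 + ε) : F0 ≤ B0 := by
  refine le_of_forall_lt_imp_le_of_dense fun c hc => ?_
  refine ENNReal.le_of_forall_pos_le_add fun ε hε _ => ?_
  have h1 := hlsc c hc
  have h2 := hcont (ε : ℝ≥0∞) (by exact_mod_cast hε)
  obtain ⟨δ, hδ, hsub⟩ := mem_nhdsGT_iff_exists_Ioo_subset.1 (h1.and h2)
  have hδ0 : (0 : ℝ) < δ := hδ
  have ht : (0 : ℝ) < δ / 2 := by positivity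
  have htδ : δ / 2 < δ := by linarith
  have hne : ∀ᵐ s ∂(volume : Measure ℝ), s ≠ 0 := by
    have : (volume : Measure ℝ) {(0 : ℝ)} = 0 := by simp
    exact measure_eq_zero_iff_ae_notMem.1 this
  have hL : c * ENNReal.ofReal (δ / 2) ≤ ∫⁻ s in Icc (0 : ℝ) (δ / 2), F s := by
    have h0 : ∫⁻ _s in Icc (0 : ℝ) (δ / 2), c = c * ENNReal.ofReal (δ / 2) := by
      simp
    rw [← h0]
    refine lintegral_mono_ae ?_
    refine (ae_restrict_iff' measurableSet_Icc).2 ?_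
    filter_upwards [hne] with s hs hsI
    have : s ∈ Ioo (0 : ℝ) δ := ⟨lt_of_le_of_ne hsI.1 (Ne.symm hs), lt_of_le_of_lt hsI.2 htδ⟩
    exact (hsub this).1.le
  have hR : ∫⁻ r in Icc (0 : ℝ) 1, Bb (r * (δ / 2)) ≤ B0 + ε := by
    have h0 : ∫⁻ _r in Icc (0 : ℝ) 1, (B0 + ε) = B0 + ε := by
      simp
    rw [← h0]
    refine lintegral_mono_ae ?_
    refine (ae_restrict_iff' measurableSet_Icc).2 ?_
    filter_upwards [hne] with r hr hrI
    have hr0 : 0 < r := lt_of_le_of_ne hrI.1 (Ne.symm hr)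
    have : r * (δ / 2) ∈ Ioo (0 : ℝ) δ := by
      refine ⟨by positivity, ?_⟩
      have : r * (δ / 2) ≤ 1 * (δ / 2) := by
        exact mul_le_mul_of_nonneg_right hrI.2 ht.le
      linarith
    exact (hsub this).2
  have hmain : c * ENNReal.ofReal (δ / 2) ≤ (B0 + ε) * ENNReal.ofReal (δ / 2) := by
    calc c * ENNReal.ofReal (δ / 2) ≤ ∫⁻ s in Icc (0 : ℝ) (δ / 2), F s := hL
      _ ≤ ENNReal.ofReal (δ / 2) * ∫⁻ r in Icc (0 : ℝ) 1, Bb (r * (δ / 2)) := hstep _ ht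
      _ ≤ ENNReal.ofReal (δ / 2) * (B0 + ε) := by gcongr
      _ = (B0 + ε) * ENNReal.ofReal (δ / 2) := mul_comm _ _
  have hpos : ENNReal.ofReal (δ / 2) ≠ 0 := by
    simpa [ENNReal.ofReal_eq_zero, not_le] using ht
  exact (ENNReal.mul_le_mul_iff_left hpos ENNReal.ofReal_ne_top).1 hmain

end Claimed.Agent.R210.ID.CoreA
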