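/-
Row 210 (S0432), layer ID, architect helper226.   Measure theory: `w ∈ L¹`, `h_s` bounded, `h_s → 0` in `L¹`  ⟹  `∫ |w| |h_s| → 0`.
Map of the layer: header of `ID/Ifc.lean`.      (general measure space)
-/
import Mathlib

set_option autoImplicit false

open Set Filter MeasureTheory
open scoped ENNReal NNReal Topology

namespace Claimed.Agent.R210.ID.CoreB

variable {X : Type*} [MeasurableSpace X] {m : Measure X}

/-- Proof.  W.l.o.g. `w` measurable (`hw.1.mk`).  For `K > 0`, `A_K = {x | K < |w x|}` (measurable):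
`∫⁻ |w| |h_s| = ∫⁻_{A_K} + ∫⁻_{A_Kᶜ} ≤ ofReal M * ∫⁻_{A_K} |w| + ofReal K * ∫⁻ |h_s|`  (`lintegral_add_compl`; monotonicity needs no measurability of `h s`).
`∫⁻_{A_K} |w| → 0` as `K → ∞` (dominated convergence, or `tendsto_setLIntegral_zero` with `m' = m.withDensity |w|`…).
Given `ε`: fix `K` with `ofReal M * ∫⁻_{A_K}|w| < ε/2`, then `s` small.  Use `ENNReal.tendsto_nhds_zero`. -/
theorem id_tendsto_weighted {w : X → ℝ} (hw : Integrable w m) {h : ℝ → X → ℝ} {M : ℝ}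
    (hM : ∀ s, 0 < s → ∀ᵐ x ∂m, |h s x| ≤ M)
    (hh : Tendsto (fun s : ℝ => ∫⁻ x, ENNReal.ofReal |h s x| ∂m) (𝓝[>] (0 : ℝ)) (𝓝 0)) :
    Tendsto (fun s : ℝ => ∫⁻ x, ENNReal.ofReal |w x| * ENNReal.ofReal |h s x| ∂m) (𝓝[>] (0 : ℝ)) (𝓝 0) := by
  set g : X → ℝ≥0∞ := fun x => ENNReal.ofReal |w x| with hg
  have hgm : AEMeasurable g m := by
    have := hw.1.norm.aemeasurable.ennreal_ofReal
    simpa [Real.norm_eq_abs] using this
  have hgfin : ∫⁻ x, g x ∂m ≠ ∞ := by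
    have := (hasFiniteIntegral_iff_norm w).1 hw.2
    simpa [Real.norm_eq_abs] using this.ne
  have hlim : Tendsto (fun K : ℕ => ∫⁻ x, (g x - (K : ℝ≥0∞)) ∂m) atTop (𝓝 0) := by
    have := tendsto_lintegral_of_dominated_convergence' (μ := m)
      (F := fun (K : ℕ) x => g x - (K : ℝ≥0∞)) (f := fun _ => 0) g
      (fun K => hgm.sub aemeasurable_const)
      (fun K => ae_of_all _ fun x => tsub_le_self) hgfin (ae_of_all _ fun x => ?_)
    · simpa using this
    · obtain ⟨n, hn⟩ := ENNReal.exists_nat_gt (ENNReal.ofReal_ne_top (r := |w x|))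
      refine tendsto_atTop_of_eventually_const (i₀ := n) fun i hi => ?_
      exact tsub_eq_zero_of_le (hn.le.trans (by exact_mod_cast hi))
  rw [ENNReal.tendsto_nhds_zero]
  intro ε hε
  have hε2 : 0 < ε / 2 := ENNReal.half_pos hε.ne'
  have h1 : ∀ᶠ K : ℕ in atTop, ENNReal.ofReal M * ∫⁻ x, (g x - (K : ℝ≥0∞)) ∂m ≤ ε / 2 := by
    have := ENNReal.Tendsto.const_mul (a := ENNReal.ofReal M) hlim (Or.inr ENNReal.ofReal_ne_top)
    rw [mul_zero] at this
    exact (ENNReal.tendsto_nhds_zero.1 this) _ hε2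
  obtain ⟨K, hK⟩ := h1.exists
  have h2 : ∀ᶠ s in 𝓝[>] (0 : ℝ), (K : ℝ≥0∞) * ∫⁻ x, ENNReal.ofReal |h s x| ∂m ≤ ε / 2 := by
    have := ENNReal.Tendsto.const_mul (a := (K : ℝ≥0∞)) hh (Or.inr (ENNReal.natCast_ne_top K))
    rw [mul_zero] at this
    exact (ENNReal.tendsto_nhds_zero.1 this) _ hε2
  filter_upwards [h2, self_mem_nhdsWithin] with s hs hspos
  calc ∫⁻ x, g x * ENNReal.ofReal |h s x| ∂m
      ≤ ∫⁻ x, ((g x - (K : ℝ≥0∞)) * ENNReal.ofReal M + (K : ℝ≥0∞) * ENNReal.ofReal |h s x|) ∂m := by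
        refine lintegral_mono_ae ?_
        filter_upwards [hM s hspos] with x hx
        calc g x * ENNReal.ofReal |h s x|
            ≤ ((g x - (K : ℝ≥0∞)) + (K : ℝ≥0∞)) * ENNReal.ofReal |h s x| := by
              gcongr
              exact le_tsub_add
          _ = (g x - (K : ℝ≥0∞)) * ENNReal.ofReal |h s x| + (K : ℝ≥0∞) * ENNReal.ofReal |h s x| :=
              add_mul _ _ _
          _ ≤ (g x - (K : ℝ≥0∞)) * ENNReal.ofReal M + (K : ℝ≥0∞) * ENNReal.ofReal |h s x| := by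
              gcongr
    _ = ∫⁻ x, (g x - (K : ℝ≥0∞)) * ENNReal.ofReal M ∂m
          + ∫⁻ x, (K : ℝ≥0∞) * ENNReal.ofReal |h s x| ∂m :=
        lintegral_add_left' ((hgm.sub aemeasurable_const).mul_const _) _
    _ = ENNReal.ofReal M * ∫⁻ x, (g x - (K : ℝ≥0∞)) ∂m
          + (K : ℝ≥0∞) * ∫⁻ x, ENNReal.ofReal |h s x| ∂m := by
        rw [lintegral_mul_const' _ _ ENNReal.ofReal_ne_top,
          lintegral_const_mul' _ _ (ENNReal.natCast_ne_top K), mul_comm]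
    _ ≤ ε / 2 + ε / 2 := add_le_add hK hs
    _ = ε := ENNReal.add_halves ε

end Claimed.Agent.R210.ID.CoreB
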