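/-
Row 210 (S0432), layer ID, architect helper226.   Step (1): finite Cheeger energy ⟹ frozen Sobolev, `|Df| ≤ rs f`;  consequences of the energy inequality.
Map of the layer: header of `ID/Ifc.lean`.
-/
import Claimed.Agent.R210.ID.Need

set_option autoImplicit false
set_option linter.unusedSectionVars false

open Claims.C0366 Claims.C0366.WeakHessian
open Set Filter MeasureTheory
open scoped ENNReal NNReal Topology

namespace Claimed.Agent.R210.ID.Easy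

open Claimed.Agent.R210.Defs Claimed.Agent.R210.Defs2 Claimed.Agent.R210.ID.Need

variable {X : Type*} [MetricSpace X] [MeasurableSpace X] [BorelSpace X] [CompleteSpace X]
  [TopologicalSpace.SeparableSpace X] [ProperSpace X] {m : Measure X}

/-- `weakGradient` is the minimal weak upper gradient. -/
theorem id_minimal_spec {f : X → ℝ} (hf : LocalSobolev m f) :
    IsMinimalLocalWeakUpperGradient m f (weakGradient m f) :=
  TP.Ifc.tp_weakGradient_minimal hf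

theorem id_locallyL2_of_memLp {f : X → ℝ} (h : MemLp f 2 m) : LocallyL2 m f :=
  fun _ _ _ => h.restrict _

/-- domination: `0 ≤ D ≤ G` a.e., `D` locally `L²`, `G ∈ L²`. -/
theorem id_memLp_of_le {D G : X → ℝ} (hD : LocallyL2 m D) (h0 : ∀ᵐ x ∂m, 0 ≤ D x) (hG : MemLp G 2 m)
    (hle : ∀ᵐ x ∂m, D x ≤ G x) : MemLp D 2 m := by
  refine hG.mono' (id_need_aesm hD) ?_
  filter_upwards [h0, hle] with x h1 h2
  rwa [Real.norm_eq_abs, abs_of_nonneg h1]

/-- **Step (1).** -/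
theorem id_easy (hfin : FiniteOnBoundedSets m) {Rel : (X → ℝ) → (X → ℝ) → Prop} {rs : (X → ℝ) → X → ℝ}
    (hRS : id_RS m Rel rs) {f : X → ℝ} (hf : MemLp f 2 m) (hch : cheegerEnergy m f < ∞) :
    Sobolev m f ∧ ∀ᵐ x ∂m, weakGradient m f x ≤ rs f x := by
  have hrel := hRS.spec hf hch
  have hloc : LocalSobolev m f := id_need_TP2 hfin (id_locallyL2_of_memLp hf) (hRS.wug hrel)
  have hmin := id_minimal_spec hloc
  have hle : ∀ᵐ x ∂m, weakGradient m f x ≤ rs f x := hmin.2 _ (hRS.wug hrel)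
  exact ⟨⟨hf, hloc, id_memLp_of_le hmin.1.1 hmin.1.2.1 (hRS.memLp hrel).2 hle⟩, hle⟩

/-- `0 ≤ p ≤ q` a.e., `∫ q² ≤ ∫ p²` ⟹ `p = q` a.e.
Proof: `q² - p² ≥ 0` a.e., integrable (`MemLp.integrable_sq`), with integral `≤ 0`; `integral_eq_zero_iff_of_nonneg_ae`; then `p² = q²`, `0 ≤ p, q`. -/
theorem id_ae_eq_of_le_of_int {p q : X → ℝ} (hp : MemLp p 2 m) (hq : MemLp q 2 m) (h0 : ∀ᵐ x ∂m, 0 ≤ p x)
    (hpq : ∀ᵐ x ∂m, p x ≤ q x) (hint : ∫ x, q x ^ 2 ∂m ≤ ∫ x, p x ^ 2 ∂m) : p =ᵐ[m] q := by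
  have hp2 : Integrable (fun x => p x ^ 2) m := hp.integrable_sq
  have hq2 : Integrable (fun x => q x ^ 2) m := hq.integrable_sq
  have hnn : 0 ≤ᵐ[m] fun x => q x ^ 2 - p x ^ 2 := by
    filter_upwards [h0, hpq] with x h1 h2
    have h3 : p x ^ 2 ≤ q x ^ 2 := pow_le_pow_left₀ h1 h2 2
    exact sub_nonneg.2 h3
  have hint0 : ∫ x, (q x ^ 2 - p x ^ 2) ∂m = 0 := by
    have h1 : ∫ x, (q x ^ 2 - p x ^ 2) ∂m = ∫ x, q x ^ 2 ∂m - ∫ x, p x ^ 2 ∂m :=
      integral_sub hq2 hp2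
    have h2 : 0 ≤ ∫ x, (q x ^ 2 - p x ^ 2) ∂m := integral_nonneg_of_ae hnn
    linarith
  have hz := (integral_eq_zero_iff_of_nonneg_ae hnn (hq2.sub hp2)).1 hint0
  filter_upwards [hz, h0, hpq] with x hx h1 h2
  have h3 : q x ^ 2 - p x ^ 2 = 0 := hx
  have h4 : p x ^ 2 = q x ^ 2 := by linarith
  exact (pow_left_inj₀ h1 (h1.trans h2) two_ne_zero).1 h4

/-- the energy inequality implies everything.
Proof: `Ch f < ∞`; `id_easy`: `|Df| ≤ rs f`; `hRS.energy_eq`: `Ch f = ofReal (½ ∫ rs²)`; so `∫ rs² ≤ ∫ |Df|²`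
(`ENNReal.ofReal_le_ofReal_iff`), `id_ae_eq_of_le_of_int`, `integral_congr_ae`. -/
theorem id_of_energy_le (hfin : FiniteOnBoundedSets m) {Rel : (X → ℝ) → (X → ℝ) → Prop} {rs : (X → ℝ) → X → ℝ}
    (hRS : id_RS m Rel rs) {f : X → ℝ} (hf : Sobolev m f)
    (h : cheegerEnergy m f ≤ ENNReal.ofReal (1 / 2 * ∫ x, weakGradient m f x ^ 2 ∂m)) :
    weakGradient m f =ᵐ[m] rs f ∧
      cheegerEnergy m f = ENNReal.ofReal (1 / 2 * ∫ x, weakGradient m f x ^ 2 ∂m) := by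
  have hlt : cheegerEnergy m f < ∞ := lt_of_le_of_lt h ENNReal.ofReal_lt_top
  obtain ⟨_, hle⟩ := id_easy hfin hRS hf.1 hlt
  have hrel := hRS.spec hf.1 hlt
  have heq := hRS.energy_eq hf.1 hlt
  have hrs2 : MemLp (rs f) 2 m := (hRS.memLp hrel).2
  have hnn : 0 ≤ 1 / 2 * ∫ x, weakGradient m f x ^ 2 ∂m := by
    have h3 : 0 ≤ ∫ x, weakGradient m f x ^ 2 ∂m := integral_nonneg fun x => sq_nonneg _
    linarith
  rw [heq] at h
  have h1 := (ENNReal.ofReal_le_ofReal_iff hnn).1 h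
  have h2 : ∫ x, rs f x ^ 2 ∂m ≤ ∫ x, weakGradient m f x ^ 2 ∂m := by linarith
  have hae := id_ae_eq_of_le_of_int hf.2.2 hrs2 (id_need_grad_nonneg m f) hle h2
  refine ⟨hae, ?_⟩
  have h4 : ∫ x, rs f x ^ 2 ∂m = ∫ x, weakGradient m f x ^ 2 ∂m := by
    refine integral_congr_ae ?_
    filter_upwards [hae] with x hx
    rw [hx]
  rw [heq, h4]

end Claimed.Agent.R210.ID.Easy
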