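/-
Row 210 (S0432), layer ID, architect helper226.   One dimensional calculus for `ψ_η(s) = log (s² + η) - log η`;  an absorption lemma in `ℝ≥0∞`.
Map of the layer: header of `ID/Ifc.lean`.      (pure real analysis, no measure theory)
-/
import Mathlib

set_option autoImplicit false

open Set Filter
open scoped ENNReal NNReal Topology

namespace Claimed.Agent.R210.ID.StepA

/-- `ψ_η(s) = log (s² + η) - log η`. -/
noncomputable def id_psi (η s : ℝ) : ℝ := Real.log (s ^ 2 + η) - Real.log η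

/-- `ψ_η'(s) = 2 s/(s² + η)`. -/
noncomputable def id_dpsi (η s : ℝ) : ℝ := 2 * s / (s ^ 2 + η)

theorem id_psi_hasDerivAt {η : ℝ} (hη : 0 < η) (s : ℝ) : HasDerivAt (id_psi η) (id_dpsi η s) s := by
  have hpos : 0 < s ^ 2 + η := by positivity
  have h1 : HasDerivAt (fun r : ℝ => r ^ 2 + η) (2 * s) s := by
    have := (hasDerivAt_pow 2 s).add_const η
    simpa using this
  have h2 := (h1.log hpos.ne').sub_const (Real.log η)
  exact h2

theorem id_psi_continuous {η : ℝ} (hη : 0 < η) : Continuous (id_psi η) :=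
  continuous_iff_continuousAt.2 fun s => (id_psi_hasDerivAt hη s).continuousAt

/-- `2|s| √η ≤ s² + η`. -/
theorem id_dpsi_le {η : ℝ} (hη : 0 < η) (s : ℝ) : |id_dpsi η s| ≤ 1 / Real.sqrt η := by
  have hpos : 0 < s ^ 2 + η := by positivity
  have hsq : 0 < Real.sqrt η := Real.sqrt_pos.2 hη
  have hs2 : Real.sqrt η ^ 2 = η := Real.sq_sqrt hη.le
  unfold id_dpsi
  rw [abs_div, abs_of_pos hpos, abs_mul, abs_two, div_le_div_iff₀ hpos hsq]
  nlinarith [sq_nonneg (|s| - Real.sqrt η), sq_abs s]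

/-- `0 ≤ ψ_η(s) ≤ log (b²+η) - log η` for `|s| ≤ b`. -/
theorem id_psi_bdd {η : ℝ} (hη : 0 < η) {b s : ℝ} (hs : |s| ≤ b) :
    |id_psi η s| ≤ Real.log (b ^ 2 + η) - Real.log η := by
  have h1 : s ^ 2 ≤ b ^ 2 := by
    rw [← sq_abs s]
    exact pow_le_pow_left₀ (abs_nonneg s) hs 2
  have h0 : 0 ≤ id_psi η s := by
    unfold id_psi
    have : Real.log η ≤ Real.log (s ^ 2 + η) := Real.log_le_log hη (by nlinarith [sq_nonneg s])
    linarith
  rw [abs_of_nonneg h0]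
  unfold id_psi
  have : Real.log (s ^ 2 + η) ≤ Real.log (b ^ 2 + η) := Real.log_le_log (by positivity) (by linarith)
  linarith

/-- for `s > 0`: `(ψ_η'(s) D)² ≤ 4 (D/s)²`      (`0 ≤ ψ_η'(s) = 2s/(s²+η) ≤ 2/s`). -/
theorem id_dpsi_sq_le {η : ℝ} (hη : 0 < η) {s : ℝ} (hs : 0 < s) (D : ℝ) :
    (|id_dpsi η s| * D) ^ 2 ≤ 4 * (D / s) ^ 2 := by
  have hpos : 0 < s ^ 2 + η := by positivity
  have h0 : 0 ≤ id_dpsi η s := by unfold id_dpsi; positivity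
  have h1 : id_dpsi η s ≤ 2 / s := by
    unfold id_dpsi
    rw [div_le_div_iff₀ hpos hs]
    nlinarith
  rw [abs_of_nonneg h0, mul_pow, div_pow]
  have h2 : id_dpsi η s ^ 2 ≤ (2 / s) ^ 2 := pow_le_pow_left₀ h0 h1 2
  have h3 : id_dpsi η s ^ 2 * D ^ 2 ≤ (2 / s) ^ 2 * D ^ 2 := mul_le_mul_of_nonneg_right h2 (sq_nonneg D)
  calc id_dpsi η s ^ 2 * D ^ 2 ≤ (2 / s) ^ 2 * D ^ 2 := h3
    _ = 4 * (D ^ 2 / s ^ 2) := by rw [div_pow]; ring

/-- `F ≤ A/2 + F/2`, `F < ∞` ⟹ `F ≤ A`. -/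
theorem id_absorb {F A : ℝ≥0∞} (hF : F < ∞) (h : F ≤ 2⁻¹ * A + 2⁻¹ * F) : F ≤ A := by
  have hsplit : F = 2⁻¹ * F + 2⁻¹ * F := by
    rw [← add_mul, ENNReal.inv_two_add_inv_two, one_mul]
  have hfin : 2⁻¹ * F ≠ ∞ := ENNReal.mul_ne_top (by simp) hF.ne
  have h1 : 2⁻¹ * F + 2⁻¹ * F ≤ 2⁻¹ * A + 2⁻¹ * F := hsplit ▸ h
  have h2 : 2⁻¹ * F ≤ 2⁻¹ * A := (ENNReal.add_le_add_iff_right hfin).1 h1
  have h3 := mul_le_mul_right h2 (2 : ℝ≥0∞)
  simpa [← mul_assoc, ENNReal.mul_inv_cancel] using h3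

end Claimed.Agent.R210.ID.StepA
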