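/-
Row 210 (S0432), layer ID, architect helper226.   The functions `B = 4 (|Dv|/v)²`, `𝔅(s) = ∫ B ρ_s dm`, and `g = ψ_η ∘ v`.
Map of the layer: header of `ID/Ifc.lean`.
-/
import Claimed.Agent.R210.ID.Easy
import Claimed.Agent.R210.ID.StepA

set_option autoImplicit false
set_option linter.unusedSectionVars false

open Claims.C0366 Claims.C0366.WeakHessian
open Set Filter MeasureTheory
open scoped ENNReal NNReal Topology

namespace Claimed.Agent.R210.ID.StepB

open Claimed.Agent.R210.Defs Claimed.Agent.R210.Defs2 Claimed.Agent.R210.ID.Need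
open Claimed.Agent.R210.ID.Easy Claimed.Agent.R210.ID.StepA

variable {X : Type*} [MetricSpace X] [MeasurableSpace X] [BorelSpace X] [CompleteSpace X]
  [TopologicalSpace.SeparableSpace X] [ProperSpace X] {m : Measure X} {v : X → ℝ}

/-- `B = 4 (|Dv|/v)² = |Dρ_0|²/ρ_0²`, `ρ_0 = v²`. -/
noncomputable def id_Bf (m : Measure X) (v : X → ℝ) (x : X) : ℝ := 4 * (weakGradient m v x / v x) ^ 2

/-- `𝔅(s) = ∫ B ρ_s dm`, `ρ_s = heatF m s (v²)`. -/
noncomputable def id_BB (m : Measure X) (v : X → ℝ) (s : ℝ) : ℝ≥0∞ :=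
  ∫⁻ x, ENNReal.ofReal (id_Bf m v x) * ENNReal.ofReal (heatF m s (fun y => v y ^ 2) x) ∂m

theorem id_Bf_nonneg (m : Measure X) (v : X → ℝ) (x : X) : 0 ≤ id_Bf m v x := by
  unfold id_Bf
  positivity

/-- `id_need_aesm (id_need_grad_locallyL2 m v)`, `id_need_aesm hv.1`. -/
theorem id_Bf_aemeasurable (hv : LocalSobolev m v) : AEMeasurable (id_Bf m v) m := by
  have h1 : AEMeasurable (weakGradient m v) m :=
    (id_need_aesm (id_need_grad_locallyL2 m v)).aemeasurable
  have h2 : AEMeasurable v m := (id_need_aesm hv.1).aemeasurable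
  exact ((h1.div h2).pow_const 2).const_mul 4

/-- `g = ψ_η ∘ v` is bounded and a.e. strongly measurable. -/
theorem id_g_aesm (hv : LocalSobolev m v) {η : ℝ} (hη : 0 < η) :
    AEStronglyMeasurable (fun x => id_psi η (v x)) m :=
  (id_psi_continuous hη).comp_aestronglyMeasurable (id_need_aesm hv.1)

/-- `g = ψ_η ∘ v`: weak upper gradient with `|Dg|² ≤ B` a.e.
Proof: `id_need_chain hfin hv (id_psi_hasDerivAt hη) (id_dpsi_le hη)`; `id_minimal_spec`; `0 ≤ |Dg| ≤ |ψ'(v)| |Dv|` a.e. (`id_need_grad_nonneg`), square, `id_dpsi_sq_le`. -/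
theorem id_g_wug (hfin : FiniteOnBoundedSets m) (hv : LocalSobolev m v) (hpos : ∀ x, 0 < v x) {η : ℝ} (hη : 0 < η) :
    IsLocalWeakUpperGradient m (fun x => id_psi η (v x)) (weakGradient m (fun x => id_psi η (v x))) ∧
      ∀ᵐ x ∂m, weakGradient m (fun x => id_psi η (v x)) x ^ 2 ≤ id_Bf m v x := by
  obtain ⟨h1, h2⟩ := id_need_chain hfin hv (id_psi_hasDerivAt hη) (id_dpsi_le hη)
  refine ⟨(id_minimal_spec h1).1, ?_⟩
  filter_upwards [h2, id_need_grad_nonneg m (fun x => id_psi η (v x))] with x hx h0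
  calc weakGradient m (fun x => id_psi η (v x)) x ^ 2
      ≤ (|id_dpsi η (v x)| * weakGradient m v x) ^ 2 := pow_le_pow_left₀ h0 hx 2
    _ ≤ 4 * (weakGradient m v x / v x) ^ 2 := id_dpsi_sq_le hη (hpos x) _

end Claimed.Agent.R210.ID.StepB
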