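/-
Row 210 (S0432), layer ID, architect helper226.   Continuity of `𝔅` at `0+`.
Map of the layer: header of `ID/Ifc.lean`.
-/
import Claimed.Agent.R210.ID.StepB
import Claimed.Agent.R210.ID.CoreB

set_option autoImplicit false
set_option linter.unusedSectionVars false

open Claims.C0366 Claims.C0366.WeakHessian
open Set Filter MeasureTheory
open scoped ENNReal NNReal Topology

namespace Claimed.Agent.R210.ID.CoreC

open Claimed.Agent.R210.Defs Claimed.Agent.R210.Defs2 Claimed.Agent.R210.ID.Need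
open Claimed.Agent.R210.ID.Easy Claimed.Agent.R210.ID.StepB Claimed.Agent.R210.ID.CoreB

variable {X : Type*} [MetricSpace X] [MeasurableSpace X] [BorelSpace X] [CompleteSpace X]
  [TopologicalSpace.SeparableSpace X] [ProperSpace X] {m : Measure X} {o : X} {a B : ℝ} {v D1 : X → ℝ} {c1 : ℝ}

/-- `B v² = 4 |Dv|²`  (pointwise, `← ENNReal.ofReal_mul`, `field_simp`). -/
theorem id_BB_zero (hpos : ∀ x, 0 < v x) :
    ∫⁻ x, ENNReal.ofReal (id_Bf m v x) * ENNReal.ofReal (v x ^ 2) ∂m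
      = ∫⁻ x, ENNReal.ofReal (4 * weakGradient m v x ^ 2) ∂m := by
  refine lintegral_congr fun x => ?_
  rw [← ENNReal.ofReal_mul (id_Bf_nonneg m v x)]
  congr 1
  unfold id_Bf
  have hx : v x ≠ 0 := (hpos x).ne'
  field_simp

/-- `B ≤ 8 D1² + 8 c1²` a.e.   (`0 ≤ |Dv| ≤ v (|D1| + c1)`, so `|Dv|/v ≤ |D1| + c1`; `(p+q)² ≤ 2p² + 2q²`). -/
theorem id_Bf_le (hpos : ∀ x, 0 < v x) (hc1 : 0 ≤ c1)
    (hD1' : ∀ᵐ x ∂m, weakGradient m v x ≤ v x * (|D1 x| + c1)) :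
    ∀ᵐ x ∂m, id_Bf m v x ≤ 8 * D1 x ^ 2 + 8 * c1 ^ 2 := by
  filter_upwards [hD1', id_need_grad_nonneg m v] with x h1 h0
  unfold id_Bf
  have h2 : weakGradient m v x / v x ≤ |D1 x| + c1 := by
    rw [div_le_iff₀ (hpos x), mul_comm]
    exact h1
  have h3 : 0 ≤ weakGradient m v x / v x := div_nonneg h0 (hpos x).le
  have h4 : (weakGradient m v x / v x) ^ 2 ≤ (|D1 x| + c1) ^ 2 := pow_le_pow_left₀ h3 h2 2
  have h5 : (|D1 x| + c1) ^ 2 ≤ 2 * D1 x ^ 2 + 2 * c1 ^ 2 := by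
    have h6 : |D1 x| ^ 2 = D1 x ^ 2 := sq_abs _
    nlinarith [sq_nonneg (|D1 x| - c1)]
  linarith

/-- the error term tends to `0`.
Proof: with `h s x = heatF m s ρ x - ρ x` (`ρ = v²`): `|h s| ≤ B` a.e. (both in `[0,B]`: `hnice`, `id_need_nice_heat`), `∫⁻ |h s| → 0` (`id_need_heat_L1`).
`∫⁻ ofReal (B_f) ofReal |h s| ≤ ∫⁻ ofReal |8 D1²| ofReal |h s| + ofReal (8 c1²) ∫⁻ ofReal |h s|` (`id_Bf_le`, `ENNReal.ofReal_add`, `lintegral_add_left'`/`lintegral_mono_ae`)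
and both terms tend to `0` (`id_tendsto_weighted` with `w = 8 D1²`, integrable by `hD1.integrable_sq`).   Squeeze. -/
theorem id_err_tendsto (hb : id_Base m o a) (hv : LocalSobolev m v) (hpos : ∀ x, 0 < v x)
    (hnice : NiceDens m o a B (fun x => v x ^ 2)) (hD1 : MemLp D1 2 m) (hc1 : 0 ≤ c1)
    (hD1' : ∀ᵐ x ∂m, weakGradient m v x ≤ v x * (|D1 x| + c1)) :
    Tendsto (fun s : ℝ => ∫⁻ x, ENNReal.ofReal (id_Bf m v x)
      * ENNReal.ofReal |heatF m s (fun y => v y ^ 2) x - v x ^ 2| ∂m) (𝓝[>] (0 : ℝ)) (𝓝 0) := by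
  have hL1 := id_need_heat_L1 hb hnice
  have hM : ∀ s : ℝ, 0 < s → ∀ᵐ x ∂m, |heatF m s (fun y => v y ^ 2) x - v x ^ 2| ≤ B := by
    intro s hs
    have hn := id_need_nice_heat hb hnice hs.le
    filter_upwards [hn.nonneg, hn.le, hnice.nonneg, hnice.le] with x a1 a2 a3 a4
    rw [abs_le]
    constructor <;> linarith
  have hw : Integrable (fun x => 8 * D1 x ^ 2) m := hD1.integrable_sq.const_mul 8
  have T1 := id_tendsto_weighted hw (h := fun s x => heatF m s (fun y => v y ^ 2) x - v x ^ 2) hM hL1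
  have T2 : Tendsto (fun s : ℝ => ENNReal.ofReal (8 * c1 ^ 2)
      * ∫⁻ x, ENNReal.ofReal |heatF m s (fun y => v y ^ 2) x - v x ^ 2| ∂m) (𝓝[>] (0 : ℝ)) (𝓝 0) := by
    have := ENNReal.Tendsto.const_mul (a := ENNReal.ofReal (8 * c1 ^ 2)) hL1 (Or.inr ENNReal.ofReal_ne_top)
    rwa [mul_zero] at this
  have T := T1.add T2
  rw [add_zero] at T
  refine tendsto_of_tendsto_of_tendsto_of_le_of_le tendsto_const_nhds T (fun _ => zero_le) fun s => ?_
  have hmeas : AEMeasurable (fun x => ENNReal.ofReal (8 * c1 ^ 2)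
      * ENNReal.ofReal |heatF m s (fun y => v y ^ 2) x - v x ^ 2|) m := by
    have h1 : AEStronglyMeasurable (fun x => heatF m s (fun y => v y ^ 2) x - v x ^ 2) m :=
      (id_need_heat_memLp s _).aestronglyMeasurable.sub hnice.meas
    exact (h1.norm.aemeasurable.ennreal_ofReal).const_mul _
  calc ∫⁻ x, ENNReal.ofReal (id_Bf m v x) * ENNReal.ofReal |heatF m s (fun y => v y ^ 2) x - v x ^ 2| ∂m
      ≤ ∫⁻ x, (ENNReal.ofReal |8 * D1 x ^ 2| * ENNReal.ofReal |heatF m s (fun y => v y ^ 2) x - v x ^ 2|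
          + ENNReal.ofReal (8 * c1 ^ 2) * ENNReal.ofReal |heatF m s (fun y => v y ^ 2) x - v x ^ 2|) ∂m := by
        refine lintegral_mono_ae ?_
        filter_upwards [id_Bf_le hpos hc1 hD1'] with x hx
        rw [← add_mul]
        refine mul_le_mul_left ?_ _
        calc ENNReal.ofReal (id_Bf m v x) ≤ ENNReal.ofReal (8 * D1 x ^ 2 + 8 * c1 ^ 2) :=
              ENNReal.ofReal_le_ofReal hx
          _ ≤ ENNReal.ofReal (8 * D1 x ^ 2) + ENNReal.ofReal (8 * c1 ^ 2) := ENNReal.ofReal_add_le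
          _ ≤ ENNReal.ofReal |8 * D1 x ^ 2| + ENNReal.ofReal (8 * c1 ^ 2) :=
              add_le_add (ENNReal.ofReal_le_ofReal (le_abs_self _)) le_rfl
    _ = ∫⁻ x, ENNReal.ofReal |8 * D1 x ^ 2| * ENNReal.ofReal |heatF m s (fun y => v y ^ 2) x - v x ^ 2| ∂m
          + ENNReal.ofReal (8 * c1 ^ 2)
            * ∫⁻ x, ENNReal.ofReal |heatF m s (fun y => v y ^ 2) x - v x ^ 2| ∂m := by
        rw [lintegral_add_right' _ hmeas, lintegral_const_mul' _ _ ENNReal.ofReal_ne_top]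

/-- continuity of `𝔅` at `0+`.
Proof: `ofReal (ρ_s) ≤ ofReal (ρ_0) + ofReal |ρ_s - ρ_0|`, so `𝔅(s) ≤ ∫⁻ ofReal B_f ofReal (v²) + ∫⁻ ofReal B_f ofReal |ρ_s - ρ_0|` (`lintegral_add_left'`, a.e. measurability:
`id_Bf_aemeasurable hv`, `hnice.meas`); first term: `id_BB_zero`; second term `≤ ε` eventually: `id_err_tendsto`. -/
theorem id_cont (hb : id_Base m o a) (hv : LocalSobolev m v) (hpos : ∀ x, 0 < v x)
    (hnice : NiceDens m o a B (fun x => v x ^ 2)) (hD1 : MemLp D1 2 m) (hc1 : 0 ≤ c1)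
    (hD1' : ∀ᵐ x ∂m, weakGradient m v x ≤ v x * (|D1 x| + c1)) {ε : ℝ≥0∞} (hε : 0 < ε) :
    ∀ᶠ s in 𝓝[>] (0 : ℝ), id_BB m v s ≤ ∫⁻ x, ENNReal.ofReal (4 * weakGradient m v x ^ 2) ∂m + ε := by
  have hE := (ENNReal.tendsto_nhds_zero.1 (id_err_tendsto hb hv hpos hnice hD1 hc1 hD1')) ε hε
  filter_upwards [hE] with s hs
  have hmeas : AEMeasurable (fun x => ENNReal.ofReal (id_Bf m v x) * ENNReal.ofReal (v x ^ 2)) m :=
    (id_Bf_aemeasurable hv).ennreal_ofReal.mul hnice.meas.aemeasurable.ennreal_ofReal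
  unfold id_BB
  calc ∫⁻ x, ENNReal.ofReal (id_Bf m v x) * ENNReal.ofReal (heatF m s (fun y => v y ^ 2) x) ∂m
      ≤ ∫⁻ x, (ENNReal.ofReal (id_Bf m v x) * ENNReal.ofReal (v x ^ 2)
          + ENNReal.ofReal (id_Bf m v x) * ENNReal.ofReal |heatF m s (fun y => v y ^ 2) x - v x ^ 2|) ∂m := by
        refine lintegral_mono fun x => ?_
        rw [← mul_add]
        refine mul_le_mul_right ?_ _
        calc ENNReal.ofReal (heatF m s (fun y => v y ^ 2) x)
            ≤ ENNReal.ofReal (v x ^ 2 + |heatF m s (fun y => v y ^ 2) x - v x ^ 2|) := by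
              refine ENNReal.ofReal_le_ofReal ?_
              have := le_abs_self (heatF m s (fun y => v y ^ 2) x - v x ^ 2)
              linarith
          _ ≤ _ := ENNReal.ofReal_add_le
    _ = ∫⁻ x, ENNReal.ofReal (id_Bf m v x) * ENNReal.ofReal (v x ^ 2) ∂m
          + ∫⁻ x, ENNReal.ofReal (id_Bf m v x)
            * ENNReal.ofReal |heatF m s (fun y => v y ^ 2) x - v x ^ 2| ∂m := lintegral_add_left' hmeas _
    _ ≤ _ := by
        rw [id_BB_zero hpos]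
        exact add_le_add le_rfl hs

end Claimed.Agent.R210.ID.CoreC
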