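/-
Row 210 (S0432), layer ID, architect helper226.   Small facts on `dens m ρ` and a change of variables.
Map of the layer: header of `ID/Ifc.lean`.
-/
import Claimed.Agent.R210.ID.Need

set_option autoImplicit false
set_option linter.unusedSectionVars false

open Claims.C0366 Claims.C0366.WeakHessian
open Set Filter MeasureTheory
open scoped ENNReal NNReal Topology

namespace Claimed.Agent.R210.ID.PlanA

open Claimed.Agent.R210.Defs Claimed.Agent.R210.Defs2 Claimed.Agent.R210.ID.Need

variable {X : Type*} [MetricSpace X] [MeasurableSpace X] [BorelSpace X] [CompleteSpace X]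
  [TopologicalSpace.SeparableSpace X] [ProperSpace X] {m : Measure X} {o : X} {a B : ℝ} {ρ : X → ℝ}

/-- `withDensity_congr_ae`. -/
theorem id_dens_congr {ρ ρ' : X → ℝ} (h : ρ =ᵐ[m] ρ') : dens m ρ = dens m ρ' := by
  show m.withDensity _ = m.withDensity _
  refine withDensity_congr_ae ?_
  filter_upwards [h] with x hx
  rw [hx]

/-- `ρ ≤ B` a.e. ⟹ `ρ m ≤ B m`   (`withDensity_mono`, `withDensity_const`; `ENNReal.ofReal B = ↑B.toNNReal` is `rfl`). -/
theorem id_dens_le (hρ : NiceDens m o a B ρ) : dens m ρ ≤ ((B.toNNReal : ℝ≥0) : ℝ≥0∞) • m := by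
  rw [← withDensity_const]
  show m.withDensity _ ≤ _
  refine withDensity_mono ?_
  filter_upwards [hρ.le] with x hx
  exact ENNReal.ofReal_le_ofReal hx

/-- `withDensity_apply _ MeasurableSet.univ`, `ofReal_integral_eq_lintegral_ofReal`, `hρ.mass`. -/
theorem id_dens_prob (hρ : NiceDens m o a B ρ) : IsProbabilityMeasure (dens m ρ) :=
  KU.Ifc.ku_dens_prob hρ

/-- linear change of variables in a `lintegral`  (see also `CU.Ifc.cu_lintegral_affine`; or `Measure.map_mul_right_eq_self`-type lemmas:
`Real.map_volume_mul_right`, `lintegral_map`, preimage of `Icc` under `r ↦ r * t`). -/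
theorem id_lintegral_scale (A : ℝ → ℝ≥0∞) (hA : Measurable A) {t : ℝ} (ht : 0 < t) (s s' : ℝ) :
    ENNReal.ofReal t * ∫⁻ r in Icc s s', A (r * t) = ∫⁻ u in Icc (s * t) (s' * t), A u := by
  rcases le_or_gt s s' with h | h
  · have key := CU.Ifc.cu_lintegral_affine A 0 ht.ne' h
    rw [abs_of_pos ht, lintegral_const_mul _ (by fun_prop)] at key
    simp only [zero_add] at key
    rw [key, uIcc_of_le (mul_le_mul_of_nonneg_right h ht.le)]
  · rw [Icc_eq_empty (not_le.2 h), Icc_eq_empty (not_le.2 (mul_lt_mul_of_pos_right h ht))]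
    simp

end Claimed.Agent.R210.ID.PlanA
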