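/-
Row 210 (S0432), layer ID, architect helper226.   The heat flow of a nice density is represented by a test plan (KU2 + LI1').
Map of the layer: header of `ID/Ifc.lean`.
-/
import Claimed.Agent.R210.ID.PlanA

set_option autoImplicit false
set_option linter.unusedSectionVars false

open Claims.C0366 Claims.C0366.WeakHessian
open Set Filter MeasureTheory
open scoped ENNReal NNReal Topology

namespace Claimed.Agent.R210.ID.Plan

open Claimed.Agent.R210.Defs Claimed.Agent.R210.Defs2 Claimed.Agent.R210.ID.Need Claimed.Agent.R210.ID.PlanA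

variable {X : Type*} [MetricSpace X] [MeasurableSpace X] [BorelSpace X] [CompleteSpace X]
  [TopologicalSpace.SeparableSpace X] [ProperSpace X] {m : Measure X} {o : X} {a B : ℝ} {ρ : X → ℝ}

/-- **the plan**: time rescaled by `t`.
Proof: `id_need_LI1 hb.geo` with `μ r = dens m (heatF m (r * t) ρ)`, `A r = ENNReal.ofReal (t ^ 2) * fisher m (heatF m (r * t) ρ)`.
* `hprob`: `id_dens_prob (id_need_nice_heat hb hρ _)`;   `hA`: `id_need_fisher_meas` composed with `r ↦ r * t`;
* `∫⁻ r in Icc s s', A r = ofReal t * ∫⁻ u in Icc (s*t) (s'*t), fisher …` by `lintegral_const_mul`, `id_lintegral_scale` (`ofReal (t^2) = ofReal t * ofReal t`);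
* `hAfin`: the previous line with `s = 0, s' = 1` and `id_need_fisher_fin`;
* `hW`: `id_need_KU2` between the times `s * t ≤ s' * t`, `ofReal (s'*t - s*t) = ofReal (s' - s) * ofReal t`;
* test plan: probability, compression constant `B.toNNReal` (`id_dens_le (id_need_nice_heat …)`), a.e. `IsAC2`, finite energy. -/
theorem id_plan (hb : id_Base m o a) (hρ : NiceDens m o a B ρ) {t : ℝ} (ht : 0 < t) :
    ∃ π : Measure (Curve X), IsTestPlan m π ∧
      (∀ r : Time, Measure.map (fun γ : Curve X => γ r) π = dens m (heatF m ((r : ℝ) * t) ρ)) ∧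
      ∫⁻ γ, ∫⁻ r in Icc (0 : ℝ) 1, (metricSpeed γ r) ^ 2 ∂volume ∂π
        ≤ ENNReal.ofReal t * ∫⁻ s in Icc (0 : ℝ) t, fisher m (heatF m s ρ) := by
  have hFm := id_need_fisher_meas hb hρ
  have hFm' : Measurable (fun r : ℝ => fisher m (heatF m (r * t) ρ)) :=
    hFm.comp (measurable_id.mul_const t)
  have hsc : ∀ s s' : ℝ, ∫⁻ r in Icc s s', ENNReal.ofReal (t ^ 2) * fisher m (heatF m (r * t) ρ)
      = ENNReal.ofReal t * ∫⁻ u in Icc (s * t) (s' * t), fisher m (heatF m u ρ) := by
    intro s s'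
    rw [lintegral_const_mul _ hFm', ← id_lintegral_scale _ hFm ht s s', ← mul_assoc,
      ← ENNReal.ofReal_mul ht.le, sq]
  have hfin : ENNReal.ofReal t * ∫⁻ s in Icc (0 : ℝ) t, fisher m (heatF m s ρ) < ∞ :=
    ENNReal.mul_lt_top ENNReal.ofReal_lt_top (id_need_fisher_fin hb hρ t)
  have h01 := hsc 0 1
  rw [zero_mul, one_mul] at h01
  obtain ⟨π, hπ, hmap, hac, hen⟩ := id_need_LI1 hb.geo (fun r => dens m (heatF m (r * t) ρ))
    (fun r hr => id_dens_prob (id_need_nice_heat hb hρ (mul_nonneg hr.1 ht.le)))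
    (fun r => ENNReal.ofReal (t ^ 2) * fisher m (heatF m (r * t) ρ))
    (hFm'.const_mul _)
    (by rw [h01]; exact hfin)
    (by
      intro s s' hs hss' hs'
      rw [hsc, ← mul_assoc, ← ENNReal.ofReal_mul (sub_nonneg.2 hss'.le), sub_mul]
      exact id_need_KU2 hb hρ (mul_nonneg hs ht.le) (mul_le_mul_of_nonneg_right hss'.le ht.le))
  rw [h01] at hen
  refine ⟨π, ⟨hπ, ⟨B.toNNReal, fun r => ?_⟩, hac, hen.trans_lt hfin⟩, hmap, hen⟩
  rw [hmap r]
  exact id_dens_le (id_need_nice_heat hb hρ (mul_nonneg r.2.1 ht.le))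

end Claimed.Agent.R210.ID.Plan
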