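/-
Row 210 (S0432), layer ID, architect helper226.   (a) the weak upper gradient inequality for ALL test plans (without `BoundedTracks`).
Map of the layer: header of `ID/Ifc.lean`.
-/
import Claimed.Agent.R210.ID.Need

set_option autoImplicit false
set_option linter.unusedSectionVars false

open Claims.C0366 Claims.C0366.WeakHessian
open Set Filter MeasureTheory
open scoped ENNReal NNReal Topology

namespace Claimed.Agent.R210.ID.WugA

open Claimed.Agent.R210.Defs Claimed.Agent.R210.Defs2 Claimed.Agent.R210.ID.Need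

variable {X : Type*} [MetricSpace X] [MeasurableSpace X] [BorelSpace X] [CompleteSpace X]
  [TopologicalSpace.SeparableSpace X] [ProperSpace X] {m : Measure X}

/-- curves that stay in `closedBall o n`. -/
def id_Gam (o : X) (n : ℕ) : Set (Curve X) := {γ | ∀ t : Time, dist (γ t) o ≤ n}

/-- intersection over `t` of closed sets (`ContinuousMap.continuous_eval_const`). -/
theorem id_Gam_closed (o : X) (n : ℕ) : IsClosed (id_Gam o n) := by
  have e : id_Gam o n = ⋂ t : Time, {γ : Curve X | dist (γ t) o ≤ n} := by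
    ext γ
    simp [id_Gam]
  rw [e]
  refine isClosed_iInter fun t => ?_
  exact isClosed_le ((continuous_eval_const t).dist continuous_const) continuous_const

theorem id_Gam_mono (o : X) : Monotone (id_Gam o) := by
  intro a b hab γ hγ t
  exact (hγ t).trans (by exact_mod_cast hab)

/-- the range of a curve is compact, hence bounded. -/
theorem id_Gam_iUnion (o : X) : ⋃ n, id_Gam o n = (univ : Set (Curve X)) := by
  refine eq_univ_of_forall fun γ => ?_
  have hc : IsCompact (range γ) := isCompact_range γ.continuous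
  obtain ⟨R, hR⟩ := hc.isBounded.subset_closedBall o
  obtain ⟨n, hn⟩ := exists_nat_ge R
  refine mem_iUnion.2 ⟨n, fun t => ?_⟩
  exact (Metric.mem_closedBall.1 (hR (mem_range_self t))).trans hn

/-- the inequality on `id_Gam o n`.
Proof: if `π (id_Gam o n) = 0` both sides vanish (`Measure.restrict_eq_zero`).   Otherwise `π' = (π Γ)⁻¹ • π.restrict Γ` is a test plan
(`id_need_restrict`) with `BoundedTracks` (`o`, `R = n + 1`, `ae_restrict_mem`; `Γ` is closed hence measurable: the sigma-algebra of `Curve X` is the Borel one);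
apply `h.2.2 π'`, `lintegral_smul_measure` on both sides, cancel `(π Γ)⁻¹` (`≠ 0` and `≠ ∞` since `0 < π Γ ≤ 1`). -/
theorem id_wug_Gam {g D : X → ℝ} (h : IsLocalWeakUpperGradient m g D) {π : Measure (Curve X)} (hπ : IsTestPlan m π)
    (o : X) (n : ℕ) :
    ∫⁻ γ in id_Gam o n, ENNReal.ofReal |g (γ timeOne) - g (γ timeZero)| ∂π
      ≤ ∫⁻ γ in id_Gam o n, ∫⁻ t in Icc (0 : ℝ) 1, ENNReal.ofReal (D (evalReal γ t)) * metricSpeed γ t ∂volume ∂π := by
  have hΓm : MeasurableSet (id_Gam o n) := (id_Gam_closed o n).measurableSet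
  by_cases h0 : π (id_Gam o n) = 0
  · have e : π.restrict (id_Gam o n) = 0 := Measure.restrict_eq_zero.2 h0
    rw [e]
    simp
  · have hprob : IsProbabilityMeasure π := hπ.1
    have htop : π (id_Gam o n) ≠ ∞ := measure_ne_top π _
    have hT := id_need_restrict hπ h0
    have hB : BoundedTracks ((π (id_Gam o n))⁻¹ • π.restrict (id_Gam o n)) := by
      refine ⟨o, n + 1, by positivity, ?_⟩
      have h1 : ∀ᵐ γ ∂(π.restrict (id_Gam o n)), γ ∈ id_Gam o n := ae_restrict_mem hΓm
      have h2 : ∀ᵐ γ ∂((π (id_Gam o n))⁻¹ • π.restrict (id_Gam o n)), γ ∈ id_Gam o n :=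
        Measure.ae_smul_measure h1 _
      filter_upwards [h2] with γ hγ t
      exact (hγ t).trans (by linarith)
    have key := h.2.2 _ hT hB
    rw [lintegral_smul_measure, lintegral_smul_measure, smul_eq_mul, smul_eq_mul] at key
    have hc0 : (π (id_Gam o n))⁻¹ ≠ 0 := ENNReal.inv_ne_zero.2 htop
    have hct : (π (id_Gam o n))⁻¹ ≠ ∞ := ENNReal.inv_ne_top.2 h0
    exact (ENNReal.mul_le_mul_iff_right hc0 hct).1 key

/-- for an arbitrary (not nec. measurable) `F`: `∫⁻ F ∂π = ⨆ n, ∫⁻ γ in id_Gam o n, F γ ∂π`.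
Proof: `ν = π.withDensity F`; `withDensity_apply` (measurable SETS only), `Monotone.measure_iUnion`, `id_Gam_iUnion`. -/
theorem id_lintegral_eq_iSup (π : Measure (Curve X)) (F : Curve X → ℝ≥0∞) (o : X) :
    ∫⁻ γ, F γ ∂π = ⨆ n, ∫⁻ γ in id_Gam o n, F γ ∂π := by
  have hm : ∀ n, MeasurableSet (id_Gam o n) := fun n => (id_Gam_closed o n).measurableSet
  have h1 : ∀ n, ∫⁻ γ in id_Gam o n, F γ ∂π = (π.withDensity F) (id_Gam o n) :=
    fun n => (withDensity_apply F (hm n)).symm
  simp_rw [h1]
  rw [← (id_Gam_mono o).measure_iUnion, id_Gam_iUnion, withDensity_apply F MeasurableSet.univ,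
    Measure.restrict_univ]

/-- **(a)** the weak upper gradient inequality for ALL test plans.    (If `X` is empty there is no probability measure on `Curve X`.) -/
theorem id_wug_all {g D : X → ℝ} (h : IsLocalWeakUpperGradient m g D) {π : Measure (Curve X)} (hπ : IsTestPlan m π)
    (o : X) :
    ∫⁻ γ, ENNReal.ofReal |g (γ timeOne) - g (γ timeZero)| ∂π
      ≤ ∫⁻ γ, ∫⁻ t in Icc (0 : ℝ) 1, ENNReal.ofReal (D (evalReal γ t)) * metricSpeed γ t ∂volume ∂π := by
  rw [id_lintegral_eq_iSup π _ o, id_lintegral_eq_iSup π _ o]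
  exact iSup_mono fun n => id_wug_Gam h hπ o n

end Claimed.Agent.R210.ID.WugA
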