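/-
Row 210 (S0432), layer ID, architect helper226.   (b) Young + Tonelli along a test plan with given marginals.
Map of the layer: header of `ID/Ifc.lean`.
-/
import Claimed.Agent.R210.ID.Need

set_option autoImplicit false
set_option linter.unusedSectionVars false

open Claims.C0366 Claims.C0366.WeakHessian
open Set Filter MeasureTheory
open scoped ENNReal NNReal Topology

namespace Claimed.Agent.R210.ID.WugB

open Claimed.Agent.R210.Defs Claimed.Agent.R210.Defs2 Claimed.Agent.R210.ID.Need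

variable {X : Type*} [MetricSpace X] [MeasurableSpace X] [BorelSpace X] [CompleteSpace X]
  [TopologicalSpace.SeparableSpace X] [ProperSpace X] {m : Measure X}

/-- Tonelli for a Borel function along a plan with given marginals.
Proof: `lintegral_lintegral_swap` (joint measurability: `hh.comp id_need_meas_eval`; `π` is a probability measure);  for `r ∈ Icc 0 1`
(`setLIntegral_congr_fun measurableSet_Icc`): `evalReal γ r = γ ⟨r, hr⟩` (`id_need_evalReal_coe`), `lintegral_map hh (id_need_meas_eval_time _)`, `hmarg`,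
`lintegral_withDensity_eq_lintegral_mul₀` (density a.e. measurable by `hσ`), `mul_comm`. -/
theorem id_tonelli {π : Measure (Curve X)} (hπ : IsTestPlan m π) {σ : ℝ → X → ℝ}
    (hσ : ∀ r, AEStronglyMeasurable (σ r) m)
    (hmarg : ∀ r : Time, Measure.map (fun γ : Curve X => γ r) π = dens m (σ (r : ℝ)))
    {h : X → ℝ≥0∞} (hh : Measurable h) :
    ∫⁻ γ, ∫⁻ r in Icc (0 : ℝ) 1, h (evalReal γ r) ∂volume ∂π
      = ∫⁻ r in Icc (0 : ℝ) 1, ∫⁻ x, h x * ENNReal.ofReal (σ r x) ∂m := by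
  have := hπ.1
  have hj : Measurable (fun p : Curve X × ℝ => h (evalReal p.1 p.2)) := hh.comp id_need_meas_eval
  rw [lintegral_lintegral_swap (f := fun γ r => h (evalReal γ r)) hj.aemeasurable]
  refine setLIntegral_congr_fun measurableSet_Icc fun r hr => ?_
  have h1 : ∀ γ : Curve X, evalReal γ r = γ ⟨r, hr⟩ := fun γ => id_need_evalReal_coe γ ⟨r, hr⟩
  simp only [h1]
  rw [← lintegral_map (μ := π) (f := h) hh (id_need_meas_eval_time ⟨r, hr⟩), hmarg ⟨r, hr⟩]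
  show ∫⁻ x, h x ∂(m.withDensity _) = _
  rw [lintegral_withDensity_eq_lintegral_mul₀ (hσ r).aemeasurable.ennreal_ofReal hh.aemeasurable]
  refine lintegral_congr fun x => ?_
  simp only [Pi.mul_apply]
  exact mul_comm _ _

/-- Young in `ℝ≥0∞`   (cases `x = ∞`, `y = ∞`; otherwise real numbers, `2 x y ≤ t x² + y²/t`). -/
theorem id_young_pt (x y : ℝ≥0∞) {t : ℝ} (ht : 0 < t) :
    x * y ≤ 2⁻¹ * (ENNReal.ofReal t * x ^ 2) + 2⁻¹ * ((ENNReal.ofReal t)⁻¹ * y ^ 2) := by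
  have ht0 : ENNReal.ofReal t ≠ 0 := by simpa using ht
  have htt : ENNReal.ofReal t ≠ ∞ := ENNReal.ofReal_ne_top
  rcases eq_or_ne x ∞ with rfl | hx
  · have : 2⁻¹ * (ENNReal.ofReal t * (∞ : ℝ≥0∞) ^ 2) = ∞ := by
      rw [ENNReal.top_pow (by norm_num), ENNReal.mul_top ht0, ENNReal.mul_top (by simp)]
    rw [this]
    simp
  rcases eq_or_ne y ∞ with rfl | hy
  · have : 2⁻¹ * ((ENNReal.ofReal t)⁻¹ * (∞ : ℝ≥0∞) ^ 2) = ∞ := by
      rw [ENNReal.top_pow (by norm_num), ENNReal.mul_top (by simp), ENNReal.mul_top (by simp)]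
    rw [this]
    simp
  lift x to ℝ≥0 using hx
  lift y to ℝ≥0 using hy
  have h2 : (2 : ℝ≥0∞)⁻¹ = ENNReal.ofReal (2⁻¹) := by
    rw [ENNReal.ofReal_inv_of_pos (by norm_num)]
    simp
  rw [← ENNReal.ofReal_coe_nnreal (p := x), ← ENNReal.ofReal_coe_nnreal (p := y), h2, ← ENNReal.ofReal_inv_of_pos ht,
    ← ENNReal.ofReal_pow x.coe_nonneg, ← ENNReal.ofReal_pow y.coe_nonneg, ← ENNReal.ofReal_mul x.coe_nonneg,
    ← ENNReal.ofReal_mul ht.le,
    ← ENNReal.ofReal_mul (by positivity), ← ENNReal.ofReal_mul (by positivity), ← ENNReal.ofReal_mul (by positivity),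
    ← ENNReal.ofReal_add (by positivity) (by positivity)]
  refine ENNReal.ofReal_le_ofReal ?_
  have key : 0 ≤ (t * (x : ℝ) - y) ^ 2 := sq_nonneg _
  have : (2 : ℝ)⁻¹ * (t * (x : ℝ) ^ 2) + 2⁻¹ * (t⁻¹ * (y : ℝ) ^ 2) - x * y = (t * (x : ℝ) - y) ^ 2 / (2 * t) := by
    field_simp
    ring
  have h3 : 0 ≤ (t * (x : ℝ) - y) ^ 2 / (2 * t) := by positivity
  linarith

/-- **(b)** Young + Tonelli.
Proof: let `h = fun x => ENNReal.ofReal (hBf.mk Bf x)` (measurable).  For `m`-a.e. `x`: `(ofReal (D x))^2 ≤ h x`; by `id_need_ae_along` this holds at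
`evalReal γ r` for a.e. `r ∈ [0,1]`, for `π`-a.e. `γ`.  So (`lintegral_mono_ae` twice, `id_young_pt`) the left side is
`≤ ∫⁻ γ, ∫⁻ r, (2⁻¹ * (ofReal t * h (evalReal γ r)) + 2⁻¹ * ((ofReal t)⁻¹ * speed²))`; all functions are now measurable (`id_need_meas_eval`, `id_need_meas_speed`,
`Measurable.lintegral_prod_right'`), split with `lintegral_add_left`, `lintegral_const_mul`; `id_tonelli` for `h`; finally `h = ofReal ∘ Bf` a.e. -/
theorem id_young {π : Measure (Curve X)} (hπ : IsTestPlan m π) {σ : ℝ → X → ℝ} {D Bf : X → ℝ} {t : ℝ} (ht : 0 < t)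
    (hσ : ∀ r, AEStronglyMeasurable (σ r) m)
    (hmarg : ∀ r : Time, Measure.map (fun γ : Curve X => γ r) π = dens m (σ (r : ℝ)))
    (hBf : AEMeasurable Bf m) (hD : ∀ᵐ x ∂m, D x ^ 2 ≤ Bf x) :
    ∫⁻ γ, ∫⁻ r in Icc (0 : ℝ) 1, ENNReal.ofReal (D (evalReal γ r)) * metricSpeed γ r ∂volume ∂π
      ≤ 2⁻¹ * (ENNReal.ofReal t *
            ∫⁻ r in Icc (0 : ℝ) 1, ∫⁻ x, ENNReal.ofReal (Bf x) * ENNReal.ofReal (σ r x) ∂m)
        + 2⁻¹ * ((ENNReal.ofReal t)⁻¹ * ∫⁻ γ, ∫⁻ r in Icc (0 : ℝ) 1, (metricSpeed γ r) ^ 2 ∂volume ∂π) := by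
  have := hπ.1
  obtain ⟨h, hh, hP, hcongr⟩ : ∃ h : X → ℝ≥0∞, Measurable h ∧ (∀ᵐ x ∂m, (ENNReal.ofReal (D x)) ^ 2 ≤ h x) ∧
      ∀ᵐ x ∂m, h x = ENNReal.ofReal (Bf x) := by
    refine ⟨fun x => ENNReal.ofReal (hBf.mk Bf x), hBf.measurable_mk.ennreal_ofReal, ?_, ?_⟩
    · filter_upwards [hD, hBf.ae_eq_mk] with x h1 h2
      rw [← h2]
      rcases le_or_gt 0 (D x) with h0 | h0
      · rw [← ENNReal.ofReal_pow h0]
        exact ENNReal.ofReal_le_ofReal h1
      · rw [ENNReal.ofReal_of_nonpos h0.le]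
        simp
    · filter_upwards [hBf.ae_eq_mk] with x hx
      rw [← hx]
  have hje : Measurable (fun p : Curve X × ℝ => h (evalReal p.1 p.2)) := hh.comp id_need_meas_eval
  have hjs : Measurable (fun p : Curve X × ℝ => (metricSpeed p.1 p.2) ^ 2) := id_need_meas_speed.pow_const 2
  -- step 1: pointwise Young
  have step1 : ∫⁻ γ, ∫⁻ r in Icc (0 : ℝ) 1, ENNReal.ofReal (D (evalReal γ r)) * metricSpeed γ r ∂volume ∂π
      ≤ ∫⁻ γ, ∫⁻ r in Icc (0 : ℝ) 1, (2⁻¹ * (ENNReal.ofReal t * h (evalReal γ r))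
          + 2⁻¹ * ((ENNReal.ofReal t)⁻¹ * (metricSpeed γ r) ^ 2)) ∂volume ∂π := by
    refine lintegral_mono_ae ?_
    filter_upwards [id_need_ae_along hπ hP] with γ hγ
    refine lintegral_mono_ae ?_
    filter_upwards [hγ] with r hr
    refine (id_young_pt _ _ ht).trans ?_
    gcongr
  refine step1.trans (le_of_eq ?_)
  -- step 2: split
  have hs1 : ∀ γ : Curve X, Measurable (fun r : ℝ => h (evalReal γ r)) := fun γ =>
    Measurable.of_uncurry_left (f := fun (γ : Curve X) (r : ℝ) => h (evalReal γ r)) hje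
  have hs2 : ∀ γ : Curve X, Measurable (fun r : ℝ => (metricSpeed γ r) ^ 2) := fun γ =>
    Measurable.of_uncurry_left (f := fun (γ : Curve X) (r : ℝ) => (metricSpeed γ r) ^ 2) hjs
  have hm1 : ∀ γ : Curve X, Measurable (fun r : ℝ => 2⁻¹ * (ENNReal.ofReal t * h (evalReal γ r))) := fun γ =>
    ((hs1 γ).const_mul _).const_mul _
  have e1 : ∀ γ : Curve X, ∫⁻ r in Icc (0 : ℝ) 1, (2⁻¹ * (ENNReal.ofReal t * h (evalReal γ r))
          + 2⁻¹ * ((ENNReal.ofReal t)⁻¹ * (metricSpeed γ r) ^ 2)) ∂volume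
      = 2⁻¹ * (ENNReal.ofReal t * ∫⁻ r in Icc (0 : ℝ) 1, h (evalReal γ r) ∂volume)
        + 2⁻¹ * ((ENNReal.ofReal t)⁻¹ * ∫⁻ r in Icc (0 : ℝ) 1, (metricSpeed γ r) ^ 2 ∂volume) := by
    intro γ
    rw [lintegral_add_left (hm1 γ), lintegral_const_mul _ ((hs1 γ).const_mul _), lintegral_const_mul _ (hs1 γ),
      lintegral_const_mul _ ((hs2 γ).const_mul _), lintegral_const_mul _ (hs2 γ)]
  simp only [e1]
  have hM1 : Measurable (fun γ : Curve X => ∫⁻ r in Icc (0 : ℝ) 1, h (evalReal γ r) ∂volume) :=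
    hje.lintegral_prod_right'
  have hM2 : Measurable (fun γ : Curve X => ∫⁻ r in Icc (0 : ℝ) 1, (metricSpeed γ r) ^ 2 ∂volume) :=
    hjs.lintegral_prod_right'
  rw [lintegral_add_left ((hM1.const_mul _).const_mul _), lintegral_const_mul _ (hM1.const_mul _),
    lintegral_const_mul _ hM1, lintegral_const_mul _ (hM2.const_mul _), lintegral_const_mul _ hM2,
    id_tonelli hπ hσ hmarg hh]
  congr 3
  refine lintegral_congr fun r => ?_
  refine lintegral_congr_ae ?_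
  filter_upwards [hcongr] with x hx
  rw [hx]

end Claimed.Agent.R210.ID.WugB
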