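/-
Row 210 (S0432), layer ID, architect helper226.   (c) transfer of integrals from `X` to a plan with given marginals.
Map of the layer: header of `ID/Ifc.lean`.
-/
import Claimed.Agent.R210.ID.Need

set_option autoImplicit false
set_option linter.unusedSectionVars false

open Claims.C0366 Claims.C0366.WeakHessian
open Set Filter MeasureTheory
open scoped ENNReal NNReal Topology

namespace Claimed.Agent.R210.ID.WugC

open Claimed.Agent.R210.Defs Claimed.Agent.R210.Defs2 Claimed.Agent.R210.ID.Need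

variable {X : Type*} [MetricSpace X] [MeasurableSpace X] [BorelSpace X] [CompleteSpace X]
  [TopologicalSpace.SeparableSpace X] [ProperSpace X] {m : Measure X}

/-- `∫ g(γ_r) dπ = ∫ g ρ dm`.
Proof: `dens m ρ ≪ m` (`withDensity_absolutelyContinuous`) so `g` is a.e. strongly measurable for `dens m ρ`, which is a finite measure
(`isFiniteMeasure_withDensity_ofReal`), so the bounded `g` is integrable for it;  `integrable_map_measure`, `integral_map` (`id_need_meas_eval_time r`), `hmarg`;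
`integral_withDensity_eq_integral_toReal_smul₀` (or `KU.Ifc.ku_integral_dens` if its hypotheses fit), `ENNReal.toReal_ofReal` a.e. -/
theorem id_integral_marg {π : Measure (Curve X)} {ρ g : X → ℝ} {C : ℝ} (r : Time)
    (hmarg : Measure.map (fun γ : Curve X => γ r) π = dens m ρ) (hρ : Integrable ρ m) (hρ0 : ∀ᵐ x ∂m, 0 ≤ ρ x)
    (hg : AEStronglyMeasurable g m) (hgb : ∀ x, |g x| ≤ C) :
    Integrable (fun γ : Curve X => g (γ r)) π ∧ ∫ γ, g (γ r) ∂π = ∫ x, g x * ρ x ∂m := by
  have hmeas : Measurable (fun γ : Curve X => γ r) := id_need_meas_eval_time r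
  have hac : dens m ρ ≪ m := withDensity_absolutelyContinuous _ _
  have hgd : AEStronglyMeasurable g (dens m ρ) := hg.mono_ac hac
  have : IsFiniteMeasure (dens m ρ) := isFiniteMeasure_withDensity_ofReal hρ.2
  have hgi : Integrable g (dens m ρ) :=
    Integrable.of_bound hgd C (Eventually.of_forall fun x => by rw [Real.norm_eq_abs]; exact hgb x)
  have hgd' : AEStronglyMeasurable g (Measure.map (fun γ : Curve X => γ r) π) := by
    rw [hmarg]; exact hgd
  constructor
  · have h2 : Integrable g (Measure.map (fun γ : Curve X => γ r) π) := by rw [hmarg]; exact hgi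
    exact (integrable_map_measure hgd' hmeas.aemeasurable).1 h2
  · have h1 : ∫ γ, g (γ r) ∂π = ∫ x, g x ∂(Measure.map (fun γ : Curve X => γ r) π) :=
      (integral_map hmeas.aemeasurable hgd').symm
    rw [h1, hmarg, dens, integral_withDensity_eq_integral_toReal_smul₀
      hρ.aestronglyMeasurable.aemeasurable.ennreal_ofReal
      (Eventually.of_forall fun x => ENNReal.ofReal_lt_top)]
    refine integral_congr_ae ?_
    filter_upwards [hρ0] with x h0
    rw [ENNReal.toReal_ofReal h0, smul_eq_mul, mul_comm]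

/-- **(c)** transfer.
Proof: `∫ g (ρ0 - ρ1) = ∫ g ρ0 - ∫ g ρ1` (`Integrable.bdd_mul`) `= ∫ (g(γ_0) - g(γ_1)) dπ ≤ ∫ |g(γ_1) - g(γ_0)| dπ`, `ofReal_integral_eq_lintegral_ofReal`. -/
theorem id_transfer {π : Measure (Curve X)} {ρ0 ρ1 g : X → ℝ} {C : ℝ}
    (h0 : Measure.map (fun γ : Curve X => γ timeZero) π = dens m ρ0)
    (h1 : Measure.map (fun γ : Curve X => γ timeOne) π = dens m ρ1)
    (hρ0 : Integrable ρ0 m) (hρ0' : ∀ᵐ x ∂m, 0 ≤ ρ0 x) (hρ1 : Integrable ρ1 m) (hρ1' : ∀ᵐ x ∂m, 0 ≤ ρ1 x)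
    (hg : AEStronglyMeasurable g m) (hgb : ∀ x, |g x| ≤ C) :
    ENNReal.ofReal (∫ x, g x * (ρ0 x - ρ1 x) ∂m)
      ≤ ∫⁻ γ, ENNReal.ofReal |g (γ timeOne) - g (γ timeZero)| ∂π := by
  obtain ⟨i0, e0⟩ := id_integral_marg timeZero h0 hρ0 hρ0' hg hgb
  obtain ⟨i1, e1⟩ := id_integral_marg timeOne h1 hρ1 hρ1' hg hgb
  have hb : ∀ᵐ x ∂m, ‖g x‖ ≤ C := Eventually.of_forall fun x => by
    rw [Real.norm_eq_abs]; exact hgb x
  have hgρ0 : Integrable (fun x => g x * ρ0 x) m := hρ0.bdd_mul hg hb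
  have hgρ1 : Integrable (fun x => g x * ρ1 x) m := hρ1.bdd_mul hg hb
  have hE : ∫ x, g x * (ρ0 x - ρ1 x) ∂m = ∫ γ, (g (γ timeZero) - g (γ timeOne)) ∂π := by
    rw [integral_sub i0 i1, e0, e1, ← integral_sub hgρ0 hgρ1]
    congr 1
    funext x
    ring
  rw [hE]
  have habs : Integrable (fun γ : Curve X => |g (γ timeOne) - g (γ timeZero)|) π := (i1.sub i0).abs
  rw [← ofReal_integral_eq_lintegral_ofReal habs (Eventually.of_forall fun _ => abs_nonneg _)]
  apply ENNReal.ofReal_le_ofReal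
  apply integral_mono (i0.sub i1) habs
  intro γ
  show g (γ timeZero) - g (γ timeOne) ≤ |g (γ timeOne) - g (γ timeZero)|
  rw [abs_sub_comm]
  exact le_abs_self _

end Claimed.Agent.R210.ID.WugC
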