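/-
Row 210 (S0432), layer ID, architect helper226.   CORE, part 1: for fixed `t > 0`:   `∫_0^t I(ρ_s) ds ≤ t ∫_0^1 𝔅(r t) dr`,
`ρ_0 = v²`, `ρ_s = heatF m s ρ_0`, `𝔅(s) = ∫ 4 (|Dv|/v)² ρ_s dm`.       Map of the layer: header of `ID/Ifc.lean`.
-/
import Claimed.Agent.R210.ID.StepB
import Claimed.Agent.R210.ID.Plan
import Claimed.Agent.R210.ID.WugA
import Claimed.Agent.R210.ID.WugB
import Claimed.Agent.R210.ID.WugC

set_option autoImplicit false
set_option linter.unusedSectionVars false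

open Claims.C0366 Claims.C0366.WeakHessian
open Set Filter MeasureTheory
open scoped ENNReal NNReal Topology

namespace Claimed.Agent.R210.ID.Step

open Claimed.Agent.R210.Defs Claimed.Agent.R210.Defs2 Claimed.Agent.R210.ID.Need
open Claimed.Agent.R210.ID.Easy Claimed.Agent.R210.ID.PlanA Claimed.Agent.R210.ID.Plan Claimed.Agent.R210.ID.WugA
  Claimed.Agent.R210.ID.WugB Claimed.Agent.R210.ID.WugC Claimed.Agent.R210.ID.StepA Claimed.Agent.R210.ID.StepB

variable {X : Type*} [MetricSpace X] [MeasurableSpace X] [BorelSpace X] [CompleteSpace X]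
  [TopologicalSpace.SeparableSpace X] [ProperSpace X] {m : Measure X} {o : X} {a B : ℝ} {v : X → ℝ}

/-- the estimate for fixed `η`   (ASSEMBLY of the previous files).
Let `ρ = fun y => v y ^ 2`, `g = fun x => id_psi η (v x)`, `π` the plan of `id_plan hb hnice ht`, `σ r = heatF m (r * t) ρ`.
1. the integrand on the left is `g x * (ρ x - heatF m t ρ x)` (`rfl`).
2. `id_transfer` with `ρ0 = ρ`, `ρ1 = heatF m t ρ`, `C = log (b²+η) - log η` (`id_psi_bdd`, `|v x| ≤ b`), `id_g_aesm`;  marginals: `(timeZero : ℝ) * t = 0`,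
   `id_dens_congr (id_need_heat_zero _)`, `(timeOne : ℝ) * t = t`;   integrability and sign from `hnice`, `id_need_nice_heat hb hnice ht.le`.
3. `id_wug_all (id_g_wug …).1 hπ o`.
4. `id_young hπ ht (σ := σ) (fun r => (id_need_heat_memLp _ _).1) hmarg (id_Bf_aemeasurable hv) (id_g_wug …).2`; its first term is `id_BB` by definition.
5. `(ofReal t)⁻¹ * ∫⁻∫⁻ speed² ≤ (ofReal t)⁻¹ * (ofReal t * ∫⁻ fisher) = ∫⁻ fisher`  (`ENNReal.inv_mul_cancel`). -/
theorem id_step_eta (hb : id_Base m o a) (hv : LocalSobolev m v) (hpos : ∀ x, 0 < v x) {b : ℝ} (hvb : ∀ x, v x ≤ b)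
    (hnice : NiceDens m o a B (fun x => v x ^ 2)) {t : ℝ} (ht : 0 < t) {η : ℝ} (hη : 0 < η) :
    ENNReal.ofReal (∫ x, (Real.log (v x ^ 2 + η) - Real.log η) * (v x ^ 2 - heatF m t (fun y => v y ^ 2) x) ∂m)
      ≤ 2⁻¹ * (ENNReal.ofReal t * ∫⁻ r in Icc (0 : ℝ) 1, id_BB m v (r * t))
        + 2⁻¹ * ∫⁻ s in Icc (0 : ℝ) t, fisher m (heatF m s (fun y => v y ^ 2)) := by
  obtain ⟨π, hπ, hmarg, hen⟩ := id_plan hb hnice ht
  have hwug := id_g_wug hb.finite hv hpos hη
  have hnt := id_need_nice_heat hb hnice ht.le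
  have h0 : Measure.map (fun γ : Curve X => γ timeZero) π = dens m (fun y => v y ^ 2) := by
    rw [hmarg timeZero]
    have : ((timeZero : Time) : ℝ) * t = 0 := by simp [timeZero]
    rw [this]
    exact id_dens_congr (id_need_heat_zero (id_need_nice_memLp hb hnice))
  have h1 : Measure.map (fun γ : Curve X => γ timeOne) π = dens m (heatF m t (fun y => v y ^ 2)) := by
    rw [hmarg timeOne]
    have : ((timeOne : Time) : ℝ) * t = t := by simp [timeOne]
    rw [this]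
  have hgb : ∀ x, |id_psi η (v x)| ≤ Real.log (b ^ 2 + η) - Real.log η := fun x =>
    id_psi_bdd hη (by rw [abs_of_pos (hpos x)]; exact hvb x)
  have s2 := id_transfer (g := fun x => id_psi η (v x)) h0 h1 hnice.int hnice.nonneg hnt.int hnt.nonneg
    (id_g_aesm hv hη) hgb
  have s3 := id_wug_all hwug.1 hπ o
  have s4 := id_young hπ ht (σ := fun r => heatF m (r * t) (fun y => v y ^ 2))
    (fun r => (id_need_heat_memLp _ _).1) hmarg (id_Bf_aemeasurable hv) hwug.2
  have ht0 : ENNReal.ofReal t ≠ 0 := by simpa using ht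
  have s5 : (ENNReal.ofReal t)⁻¹ * ∫⁻ γ, ∫⁻ r in Icc (0 : ℝ) 1, (metricSpeed γ r) ^ 2 ∂volume ∂π
      ≤ ∫⁻ s in Icc (0 : ℝ) t, fisher m (heatF m s (fun y => v y ^ 2)) := by
    calc _ ≤ (ENNReal.ofReal t)⁻¹ * (ENNReal.ofReal t * ∫⁻ s in Icc (0 : ℝ) t, fisher m (heatF m s (fun y => v y ^ 2))) := by
          gcongr
      _ = _ := by rw [← mul_assoc, ENNReal.inv_mul_cancel ht0 ENNReal.ofReal_ne_top, one_mul]
  calc _ ≤ _ := s2
    _ ≤ _ := s3
    _ ≤ _ := s4
    _ ≤ _ := by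
      gcongr
      exact le_rfl

/-- **CORE, part 1.** -/
theorem id_step (hb : id_Base m o a) (hv : LocalSobolev m v) (hpos : ∀ x, 0 < v x) {b : ℝ} (hvb : ∀ x, v x ≤ b)
    (hnice : NiceDens m o a B (fun x => v x ^ 2)) {t : ℝ} (ht : 0 < t) :
    ∫⁻ s in Icc (0 : ℝ) t, fisher m (heatF m s (fun y => v y ^ 2))
      ≤ ENNReal.ofReal t * ∫⁻ r in Icc (0 : ℝ) 1, id_BB m v (r * t) :=
  id_absorb (id_need_fisher_fin hb hnice t)
    (id_need_fisher_le hb hnice ht.le fun _ hη => id_step_eta hb hv hpos hvb hnice ht hη)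

end Claimed.Agent.R210.ID.Step
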