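/-
Row 210 (S0432), layer ID, architect helper226.   CORE, part 2: `t → 0`.   `8 Ch(v) = I(v²) ≤ ∫ B v² = 4 ∫ |Dv|²`.
Map of the layer: header of `ID/Ifc.lean`.
-/
import Claimed.Agent.R210.ID.Step
import Claimed.Agent.R210.ID.CoreA
import Claimed.Agent.R210.ID.CoreC

set_option autoImplicit false
set_option linter.unusedSectionVars false

open Claims.C0366 Claims.C0366.WeakHessian
open Set Filter MeasureTheory
open scoped ENNReal NNReal Topology

namespace Claimed.Agent.R210.ID.Core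

open Claimed.Agent.R210.Defs Claimed.Agent.R210.Defs2 Claimed.Agent.R210.ID.Need
open Claimed.Agent.R210.ID.Easy Claimed.Agent.R210.ID.StepB Claimed.Agent.R210.ID.Step Claimed.Agent.R210.ID.CoreA
  Claimed.Agent.R210.ID.CoreC

variable {X : Type*} [MetricSpace X] [MeasurableSpace X] [BorelSpace X] [CompleteSpace X]
  [TopologicalSpace.SeparableSpace X] [ProperSpace X] {m : Measure X} {o : X} {a B : ℝ} {v D1 : X → ℝ} {c1 : ℝ}

/-- `|Dv| ≤ v (|D1| + c1) ≤ b |D1| + |c1| v ∈ L²`   (`id_memLp_of_le`, `id_need_grad_locallyL2`, `id_need_grad_nonneg`). -/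
theorem id_core_memLp (hpos : ∀ x, 0 < v x) {b : ℝ} (hvb : ∀ x, v x ≤ b)
    (hv2 : MemLp v 2 m) (hD1 : MemLp D1 2 m) (hD1' : ∀ᵐ x ∂m, weakGradient m v x ≤ v x * (|D1 x| + c1)) :
    MemLp (weakGradient m v) 2 m := by
  have hG : MemLp (fun x => b * |D1 x| + |c1| * v x) 2 m :=
    (hD1.abs.const_mul b).add (hv2.const_mul |c1|)
  refine id_memLp_of_le (id_need_grad_locallyL2 m v) (id_need_grad_nonneg m v) hG ?_
  filter_upwards [hD1'] with x hx
  refine hx.trans ?_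
  have h1 : v x * |D1 x| ≤ b * |D1 x| := mul_le_mul_of_nonneg_right (hvb x) (abs_nonneg _)
  have h2 : v x * c1 ≤ |c1| * v x := by
    rw [mul_comm]
    exact mul_le_mul_of_nonneg_right (le_abs_self _) (hpos x).le
  calc v x * (|D1 x| + c1) = v x * |D1 x| + v x * c1 := by ring
    _ ≤ b * |D1 x| + |c1| * v x := add_le_add h1 h2

/-- `8 C ≤ ∫⁻ ofReal (4 D²)` ⟹ `C ≤ ofReal (½ ∫ D²)`   (`ofReal_integral_eq_lintegral_ofReal`, `hD.integrable_sq`, `integral_const_mul`). -/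
theorem id_core_arith {D : X → ℝ} (hD : MemLp D 2 m) {C : ℝ≥0∞}
    (h : 8 * C ≤ ∫⁻ x, ENNReal.ofReal (4 * D x ^ 2) ∂m) : C ≤ ENNReal.ofReal (1 / 2 * ∫ x, D x ^ 2 ∂m) := by
  have hint : Integrable (fun x => 4 * D x ^ 2) m := hD.integrable_sq.const_mul 4
  rw [← ofReal_integral_eq_lintegral_ofReal hint (Filter.Eventually.of_forall fun x => by positivity),
    integral_const_mul] at h
  have h0 : 0 ≤ ∫ x, D x ^ 2 ∂m := integral_nonneg fun x => sq_nonneg _
  have e : ENNReal.ofReal (4 * ∫ x, D x ^ 2 ∂m) = 8 * ENNReal.ofReal (1 / 2 * ∫ x, D x ^ 2 ∂m) := by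
    rw [show (4 : ℝ) * ∫ x, D x ^ 2 ∂m = 8 * (1 / 2 * ∫ x, D x ^ 2 ∂m) by ring,
      ENNReal.ofReal_mul (by norm_num), ENNReal.ofReal_ofNat]
  rw [e] at h
  exact (ENNReal.mul_le_mul_iff_right (by norm_num) (by norm_num)).1 h

/-- **CORE.** -/
theorem id_core (hb : id_Base m o a) (hv : LocalSobolev m v) (hpos : ∀ x, 0 < v x) {b : ℝ} (hvb : ∀ x, v x ≤ b)
    (hv2 : MemLp v 2 m) (hnice : NiceDens m o a B (fun x => v x ^ 2)) (hD1 : MemLp D1 2 m) (hc1 : 0 ≤ c1)
    (hD1' : ∀ᵐ x ∂m, weakGradient m v x ≤ v x * (|D1 x| + c1)) :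
    MemLp (weakGradient m v) 2 m ∧
      cheegerEnergy m v ≤ ENNReal.ofReal (1 / 2 * ∫ x, weakGradient m v x ^ 2 ∂m) := by
  have hmem := id_core_memLp hpos hvb hv2 hD1 hD1'
  refine ⟨hmem, id_core_arith hmem ?_⟩
  have hsqrt : (fun x => Real.sqrt (v x ^ 2)) = v := by
    funext x
    exact Real.sqrt_sq (hpos x).le
  have hfish : fisher m (fun x => v x ^ 2) = 8 * cheegerEnergy m v := by
    show 8 * cheegerEnergy m (fun x => Real.sqrt (v x ^ 2)) = _
    rw [hsqrt]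
  rw [← hfish]
  exact id_limit_abstract (F := fun s => fisher m (heatF m s (fun y => v y ^ 2))) (Bb := id_BB m v)
    (fun t ht => id_step hb hv hpos hvb hnice ht)
    (fun c hc => id_need_fisher_lsc hb hnice hc)
    (fun ε hε => id_cont hb hv hpos hnice hD1 hc1 hD1' hε)

end Claimed.Agent.R210.ID.Core
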