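/-
Row 210 (S0432), layer ID, architect helper226.   The weight `θ = exp(-a (d(·,o) - R)_+)`.
Map of the layer: header of `ID/Ifc.lean`.      (metric spaces only; frozen notion used: `localSlope`)
-/
import Claimed.Agent.R210.Defs

set_option autoImplicit false
set_option linter.unusedSectionVars false

open Claims.C0366 Claims.C0366.WeakHessian
open Set Filter MeasureTheory
open scoped ENNReal NNReal Topology

namespace Claimed.Agent.R210.ID.WeightA

open Claimed.Agent.R210.Defs

variable {X : Type*} [MetricSpace X] [MeasurableSpace X] [BorelSpace X]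

/-- the weight `θ = exp(-a (d(·,o) - R)_+)`. -/
noncomputable def id_theta (o : X) (a R : ℝ) (x : X) : ℝ := Real.exp (-(a * max (dist x o - R) 0))

theorem id_theta_pos (o : X) (a R : ℝ) (x : X) : 0 < id_theta o a R x := Real.exp_pos _

theorem id_theta_le_one (o : X) {a : ℝ} (ha : 0 ≤ a) (R : ℝ) (x : X) : id_theta o a R x ≤ 1 := by
  unfold id_theta
  rw [Real.exp_le_one_iff]
  have : 0 ≤ a * max (dist x o - R) 0 := mul_nonneg ha (le_max_right _ _)
  linarith

theorem id_theta_eq_one (o : X) (a : ℝ) {R : ℝ} {x : X} (h : dist x o ≤ R) : id_theta o a R x = 1 := by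
  unfold id_theta
  rw [max_eq_right (by linarith)]
  simp

theorem id_theta_le_exp (o : X) {a : ℝ} (ha : 0 ≤ a) (R : ℝ) (x : X) :
    id_theta o a R x ≤ Real.exp (a * R) * Real.exp (-(a * dist x o)) := by
  unfold id_theta
  rw [← Real.exp_add, Real.exp_le_exp]
  have : a * (dist x o - R) ≤ a * max (dist x o - R) 0 :=
    mul_le_mul_of_nonneg_left (le_max_left _ _) ha
  linarith

theorem id_theta_continuous (o : X) (a R : ℝ) : Continuous (id_theta o a R) := by
  unfold id_theta
  fun_prop

theorem id_exp_neg_sub_le_aux {p q : ℝ} (h : p ≤ q) :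
    |Real.exp (-p) - Real.exp (-q)| ≤ |p - q| * max (Real.exp (-p)) (Real.exp (-q)) := by
  have h1 : Real.exp (-q) ≤ Real.exp (-p) := Real.exp_le_exp.2 (by linarith)
  rw [max_eq_left h1, abs_of_nonneg (by linarith), abs_of_nonpos (by linarith)]
  have h2 : Real.exp (-q) = Real.exp (-p) * Real.exp (-(q - p)) := by
    rw [← Real.exp_add]
    congr 1
    ring
  have h3 : -(q - p) + 1 ≤ Real.exp (-(q - p)) := Real.add_one_le_exp _
  have h4 : 0 < Real.exp (-p) := Real.exp_pos _
  rw [h2]
  nlinarith

theorem id_exp_neg_sub_le (p q : ℝ) :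
    |Real.exp (-p) - Real.exp (-q)| ≤ |p - q| * max (Real.exp (-p)) (Real.exp (-q)) := by
  rcases le_total p q with h | h
  · exact id_exp_neg_sub_le_aux h
  · have := id_exp_neg_sub_le_aux h
    rwa [abs_sub_comm, abs_sub_comm q p, max_comm] at this

/-- key inequality: `|e^{-p} - e^{-q}| ≤ |p - q| max (e^{-p}) (e^{-q})` and `|(d(y,o)-R)_+ - (d(x,o)-R)_+| ≤ d(y,x)`. -/
theorem id_theta_sub_le (o : X) {a : ℝ} (ha : 0 ≤ a) (R : ℝ) (x y : X) :
    |id_theta o a R y - id_theta o a R x| ≤ a * dist y x * max (id_theta o a R y) (id_theta o a R x) := by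
  unfold id_theta
  refine (id_exp_neg_sub_le _ _).trans ?_
  refine mul_le_mul_of_nonneg_right ?_ (le_max_of_le_left (Real.exp_pos _).le)
  rw [← mul_sub, abs_mul, abs_of_nonneg ha]
  refine mul_le_mul_of_nonneg_left ?_ ha
  refine (abs_max_sub_max_le_abs _ _ _).trans ?_
  have : dist y o - R - (dist x o - R) = dist y o - dist x o := by ring
  rw [this]
  exact abs_dist_sub_le y x o

/-- `θ` is `a`-Lipschitz (`id_theta_sub_le`, `id_theta_le_one`; `LipschitzWith.of_dist_le_mul`) and bounded by `1`. -/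
theorem id_theta_lipB (o : X) {a : ℝ} (ha : 0 ≤ a) (R : ℝ) : LipB (id_theta o a R) := by
  refine ⟨⟨Real.toNNReal a, LipschitzWith.of_dist_le_mul fun y x => ?_⟩, ⟨1, fun x => ?_⟩⟩
  · rw [Real.dist_eq, Real.coe_toNNReal a ha]
    refine (id_theta_sub_le o ha R x y).trans ?_
    have h1 : max (id_theta o a R y) (id_theta o a R x) ≤ 1 :=
      max_le (id_theta_le_one o ha R y) (id_theta_le_one o ha R x)
    have h2 : 0 ≤ a * dist y x := mul_nonneg ha dist_nonneg
    calc a * dist y x * max (id_theta o a R y) (id_theta o a R x) ≤ a * dist y x * 1 :=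
          mul_le_mul_of_nonneg_left h1 h2
      _ = a * dist y x := mul_one _
  · rw [abs_of_pos (id_theta_pos o a R x)]
    exact id_theta_le_one o ha R x

/-- `lip θ ≤ a θ`.
Proof: for `ε > 0`, by continuity `max (θ y) (θ x) ≤ θ x + ε` for `y` near `x`, so `|θ y - θ x| / dist y x ≤ a (θ x + ε)` eventually in `𝓝[≠] x`
(`id_theta_sub_le`), hence `localSlope θ x ≤ ofReal (a (θ x + ε))` (`Filter.limsup_le_of_le`), `ENNReal.toReal_le_of_le_ofReal`; `ε → 0` (`le_of_forall_pos_le_add`). -/
theorem id_theta_slope (o : X) {a : ℝ} (ha : 0 ≤ a) (R : ℝ) (x : X) :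
    (localSlope (id_theta o a R) x).toReal ≤ a * id_theta o a R x := by
  refine le_of_forall_pos_le_add fun ε hε => ?_
  have hθ : 0 < id_theta o a R x := id_theta_pos o a R x
  -- choose `ε'` with `a * ε' ≤ ε`
  set ε' : ℝ := ε / (a + 1) with hε'
  have hε'pos : 0 < ε' := by positivity
  have haε : a * ε' ≤ ε := by
    rw [hε', ← mul_div_assoc, div_le_iff₀ (by positivity)]
    nlinarith
  have hev : ∀ᶠ y in 𝓝 x, id_theta o a R y < id_theta o a R x + ε' :=
    (id_theta_continuous o a R).continuousAt.eventually_lt continuousAt_const (by linarith)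
  have hev' : ∀ᶠ y in 𝓝[≠] x, ENNReal.ofReal (|id_theta o a R y - id_theta o a R x| / dist y x)
      ≤ ENNReal.ofReal (a * (id_theta o a R x + ε')) := by
    filter_upwards [hev.filter_mono nhdsWithin_le_nhds, self_mem_nhdsWithin] with y hy hyx
    refine ENNReal.ofReal_le_ofReal ?_
    have hd : 0 < dist y x := dist_pos.2 hyx
    rw [div_le_iff₀ hd]
    refine (id_theta_sub_le o ha R x y).trans ?_
    have h1 : max (id_theta o a R y) (id_theta o a R x) ≤ id_theta o a R x + ε' :=
      max_le hy.le (by linarith)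
    have h2 : 0 ≤ a * dist y x := mul_nonneg ha dist_nonneg
    calc a * dist y x * max (id_theta o a R y) (id_theta o a R x)
        ≤ a * dist y x * (id_theta o a R x + ε') := mul_le_mul_of_nonneg_left h1 h2
      _ = a * (id_theta o a R x + ε') * dist y x := by ring
  have hls : localSlope (id_theta o a R) x ≤ ENNReal.ofReal (a * (id_theta o a R x + ε')) :=
    Filter.limsup_le_of_le (by isBoundedDefault) hev'
  have h3 : 0 ≤ a * (id_theta o a R x + ε') := mul_nonneg ha (by linarith)
  have := ENNReal.toReal_le_of_le_ofReal h3 hls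
  linarith

end Claimed.Agent.R210.ID.WeightA
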