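/-
Row 210 (S0432), layer ID, architect helper226.   The function `u = θ (f + c + 1)`, `|f| ≤ c`:  integrability, `z u²` is a nice density.
Map of the layer: header of `ID/Ifc.lean`.
-/
import Claimed.Agent.R210.ID.Need
import Claimed.Agent.R210.ID.WeightA

set_option autoImplicit false
set_option linter.unusedSectionVars false

open Claims.C0366 Claims.C0366.WeakHessian
open Set Filter MeasureTheory
open scoped ENNReal NNReal Topology

namespace Claimed.Agent.R210.ID.WeightB

open Claimed.Agent.R210.Defs Claimed.Agent.R210.Defs2 Claimed.Agent.R210.ID.Need Claimed.Agent.R210.ID.WeightA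

variable {X : Type*} [MetricSpace X] [MeasurableSpace X] [BorelSpace X] [CompleteSpace X]
  [TopologicalSpace.SeparableSpace X] [ProperSpace X] {m : Measure X} {o : X} {a R c : ℝ} {f : X → ℝ}

/-- `u = θ (f + c + 1)`. -/
noncomputable def id_u (o : X) (a R c : ℝ) (f : X → ℝ) (x : X) : ℝ := id_theta o a R x * (f x + (c + 1))

/-- powers of the weight against exponentials:  `e^{k a d} θ^j` is integrable if `j - k ≥ 1`.
Proof: `θ^j ≤ e^{j a R} e^{-j a d}` (`id_theta_le_exp`), so `0 ≤ e^{k a d} θ^j ≤ e^{j a R} e^{-(j-k) a d} ≤ e^{j a R} e^{-(a/4) d}`, integrable by `hgood.2`; continuity gives measurability. -/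
theorem id_theta_integrable (hgood : GoodExp m o a) (R : ℝ) {j : ℕ} {k : ℝ} (hk : k + 1 ≤ j) :
    Integrable (fun x => Real.exp (k * a * dist x o) * id_theta o a R x ^ j) m := by
  have ha : 0 < a := hgood.1
  have hcont : Continuous (fun x => Real.exp (k * a * dist x o) * id_theta o a R x ^ j) :=
    (Real.continuous_exp.comp (continuous_const.mul (continuous_id.dist continuous_const))).mul
      ((id_theta_continuous o a R).pow j)
  refine (hgood.2.const_mul (Real.exp (j * (a * R)))).mono' hcont.aestronglyMeasurable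
    (Eventually.of_forall fun x => ?_)
  have hd : 0 ≤ dist x o := dist_nonneg
  have h0 : 0 ≤ Real.exp (k * a * dist x o) * id_theta o a R x ^ j :=
    mul_nonneg (Real.exp_pos _).le (pow_nonneg (id_theta_pos o a R x).le j)
  rw [Real.norm_eq_abs, abs_of_nonneg h0]
  have h1 : id_theta o a R x ^ j ≤ (Real.exp (a * R) * Real.exp (-(a * dist x o))) ^ j :=
    pow_le_pow_left₀ (id_theta_pos o a R x).le (id_theta_le_exp o ha.le R x) j
  have h2 : (Real.exp (a * R) * Real.exp (-(a * dist x o))) ^ j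
      = Real.exp (j * (a * R)) * Real.exp (-(j * (a * dist x o))) := by
    rw [mul_pow, ← Real.exp_nat_mul, ← Real.exp_nat_mul]
    congr 2
    ring
  calc Real.exp (k * a * dist x o) * id_theta o a R x ^ j
      ≤ Real.exp (k * a * dist x o) * (Real.exp (j * (a * R)) * Real.exp (-(j * (a * dist x o)))) := by
        rw [← h2]
        exact mul_le_mul_of_nonneg_left h1 (Real.exp_pos _).le
    _ = Real.exp (j * (a * R)) * Real.exp (k * a * dist x o + -(j * (a * dist x o))) := by
        rw [Real.exp_add]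
        ring
    _ ≤ Real.exp (j * (a * R)) * Real.exp (-(a / 4) * dist x o) := by
        refine mul_le_mul_of_nonneg_left (Real.exp_le_exp.2 ?_) (Real.exp_pos _).le
        have h3 : 0 ≤ a * dist x o := mul_nonneg ha.le hd
        have h4 : (k + 1) * (a * dist x o) ≤ j * (a * dist x o) := mul_le_mul_of_nonneg_right hk h3
        nlinarith

theorem id_u_bounds (hc : ∀ x, |f x| ≤ c) (x : X) :
    id_theta o a R x ≤ id_u o a R c f x ∧ id_u o a R c f x ≤ (2 * c + 1) * id_theta o a R x := by
  have h := abs_le.1 (hc x)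
  have hθ := id_theta_pos o a R x
  unfold id_u
  constructor
  · nlinarith [h.1]
  · nlinarith [h.2]

theorem id_u_aesm (hf : AEStronglyMeasurable f m) : AEStronglyMeasurable (id_u o a R c f) m :=
  (id_theta_continuous o a R).aestronglyMeasurable.mul (hf.add aestronglyMeasurable_const)

/-- (aux) `u² ≤ (2c+1)² θ²`, `0 < u`. -/
theorem id_u_aux_sq (hc : ∀ x, |f x| ≤ c) (x : X) :
    0 < id_u o a R c f x ∧ id_u o a R c f x ^ 2 ≤ (2 * c + 1) ^ 2 * id_theta o a R x ^ 2 := by
  have h := id_u_bounds (o := o) (a := a) (R := R) hc x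
  have hθ := id_theta_pos o a R x
  have hu : 0 < id_u o a R c f x := lt_of_lt_of_le hθ h.1
  refine ⟨hu, ?_⟩
  rw [← mul_pow]
  exact pow_le_pow_left₀ hu.le h.2 2

/-- (aux) `u²` is integrable. -/
theorem id_u_aux_int (hb : id_Base m o a) (hf : AEStronglyMeasurable f m) (hc : ∀ x, |f x| ≤ c) :
    Integrable (fun x => id_u o a R c f x ^ 2) m := by
  have h1 : Integrable (fun x => Real.exp ((0 : ℝ) * a * dist x o) * id_theta o a R x ^ 2) m :=
    id_theta_integrable hb.good R (j := 2) (k := 0) (by norm_num)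
  refine (h1.const_mul ((2 * c + 1) ^ 2)).mono' ((id_u_aesm hf).pow 2) (Eventually.of_forall fun x => ?_)
  rw [Real.norm_eq_abs, abs_of_nonneg (sq_nonneg _)]
  have := (id_u_aux_sq (o := o) (a := a) (R := R) hc x).2
  simpa using this

/-- `u² ≤ (2c+1)² θ²`, `id_theta_integrable` with `k = 0`, `j = 2`; `memLp_two_iff_integrable_sq`. -/
theorem id_u_memLp (hb : id_Base m o a) (hf : AEStronglyMeasurable f m) (hc : ∀ x, |f x| ≤ c) :
    MemLp (id_u o a R c f) 2 m :=
  (memLp_two_iff_integrable_sq (id_u_aesm hf)).2 (id_u_aux_int hb hf hc)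

/-- `u² > 0` everywhere, integrable, `m ≠ 0`   (`integral_pos_iff_support_of_nonneg`). -/
theorem id_u_int_pos (hb : id_Base m o a) (hm : m ≠ 0) (hf : AEStronglyMeasurable f m) (hc : ∀ x, |f x| ≤ c) :
    0 < ∫ x, id_u o a R c f x ^ 2 ∂m := by
  rw [integral_pos_iff_support_of_nonneg (fun x => sq_nonneg _) (id_u_aux_int hb hf hc)]
  have hs : Function.support (fun x => id_u o a R c f x ^ 2) = univ := by
    ext x
    simp only [Function.mem_support, mem_univ, iff_true]
    exact (pow_pos (id_u_aux_sq (o := o) (a := a) (R := R) hc x).1 2).ne'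
  rw [hs]
  exact Measure.measure_univ_pos.2 hm

/-- `z u²` is a nice density, `z = (∫ u²)⁻¹`.
`(√z u)² = z u²` (`Real.sq_sqrt`, `mul_pow`);  `le`: `u ≤ (2c+1) θ ≤ 2c+1`;  `mass`: `integral_const_mul`, `inv_mul_cancel₀`;
`tail`: `e^{2 a d} (z u²)² ≤ z² (2c+1)⁴ e^{2 a d} θ⁴`, `id_theta_integrable` with `k = 2`, `j = 4`. -/
theorem id_u_nice (hb : id_Base m o a) (hm : m ≠ 0) (hf : AEStronglyMeasurable f m) (hc : ∀ x, |f x| ≤ c) :
    NiceDens m o a ((∫ x, id_u o a R c f x ^ 2 ∂m)⁻¹ * (2 * c + 1) ^ 2)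
      (fun x => (Real.sqrt ((∫ y, id_u o a R c f y ^ 2 ∂m)⁻¹) * id_u o a R c f x) ^ 2) := by
  have hI := id_u_int_pos (R := R) hb hm hf hc
  set z : ℝ := (∫ y, id_u o a R c f y ^ 2 ∂m)⁻¹ with hz
  have hz0 : 0 < z := inv_pos.2 hI
  have ha : 0 < a := hb.a_pos
  have heq : (fun x => (Real.sqrt z * id_u o a R c f x) ^ 2) = fun x => z * id_u o a R c f x ^ 2 := by
    funext x
    rw [mul_pow, Real.sq_sqrt hz0.le]
  rw [heq]
  have hint := id_u_aux_int (R := R) hb hf hc
  refine ⟨((id_u_aesm hf).pow 2).const_mul z, Eventually.of_forall fun x => by positivity,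
    Eventually.of_forall fun x => ?_, hint.const_mul z, ?_, ?_⟩
  · refine mul_le_mul_of_nonneg_left ?_ hz0.le
    have h1 := (id_u_aux_sq (o := o) (a := a) (R := R) hc x).2
    have h2 : id_theta o a R x ^ 2 ≤ 1 :=
      pow_le_one₀ (id_theta_pos o a R x).le (id_theta_le_one o ha.le R x)
    nlinarith [sq_nonneg (2 * c + 1)]
  · rw [integral_const_mul, hz]
    exact inv_mul_cancel₀ hI.ne'
  · have h1 : Integrable (fun x => Real.exp ((2 : ℝ) * a * dist x o) * id_theta o a R x ^ 4) m :=
      id_theta_integrable hb.good R (j := 4) (k := 2) (by norm_num)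
    have hm1 : AEStronglyMeasurable
        (fun x => Real.exp (2 * a * dist x o) * (z * id_u o a R c f x ^ 2) ^ 2) m :=
      (Real.continuous_exp.comp (continuous_const.mul
        (continuous_id.dist continuous_const))).aestronglyMeasurable.mul
        ((((id_u_aesm hf).pow 2).const_mul z).pow 2)
    refine (h1.const_mul (z ^ 2 * (2 * c + 1) ^ 4)).mono' hm1 (Eventually.of_forall fun x => ?_)
    have hE : 0 < Real.exp (2 * a * dist x o) := Real.exp_pos _
    rw [Real.norm_eq_abs, abs_of_nonneg (by positivity)]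
    have h2 := (id_u_aux_sq (o := o) (a := a) (R := R) hc x).2
    have h3 : (id_u o a R c f x ^ 2) ^ 2 ≤ ((2 * c + 1) ^ 2 * id_theta o a R x ^ 2) ^ 2 :=
      pow_le_pow_left₀ (sq_nonneg _) h2 2
    calc Real.exp (2 * a * dist x o) * (z * id_u o a R c f x ^ 2) ^ 2
        = Real.exp (2 * a * dist x o) * z ^ 2 * (id_u o a R c f x ^ 2) ^ 2 := by ring
      _ ≤ Real.exp (2 * a * dist x o) * z ^ 2 * ((2 * c + 1) ^ 2 * id_theta o a R x ^ 2) ^ 2 :=
          mul_le_mul_of_nonneg_left h3 (by positivity)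
      _ = z ^ 2 * (2 * c + 1) ^ 4 * (Real.exp (2 * a * dist x o) * id_theta o a R x ^ 4) := by ring

end Claimed.Agent.R210.ID.WeightB
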