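/-
Row 210 (S0432), layer ID, architect helper226.   Gradient of `u = θ (f + c + 1)`;  scaling;  the trivial measure.
Map of the layer: header of `ID/Ifc.lean`.
-/
import Claimed.Agent.R210.ID.Easy
import Claimed.Agent.R210.ID.WeightB

set_option autoImplicit false
set_option linter.unusedSectionVars false

open Claims.C0366 Claims.C0366.WeakHessian
open Set Filter MeasureTheory
open scoped ENNReal NNReal Topology

namespace Claimed.Agent.R210.ID.WeightC

open Claimed.Agent.R210.Defs Claimed.Agent.R210.Defs2 Claimed.Agent.R210.ID.Need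
open Claimed.Agent.R210.ID.Easy Claimed.Agent.R210.ID.WeightA Claimed.Agent.R210.ID.WeightB

variable {X : Type*} [MetricSpace X] [MeasurableSpace X] [BorelSpace X] [CompleteSpace X]
  [TopologicalSpace.SeparableSpace X] [ProperSpace X] {m : Measure X} {o : X} {a R c : ℝ} {f : X → ℝ}

/-- Leibniz + `id_theta_slope` + `θ ≤ u`.
Proof: `g = fun x => f x + (c+1)` is `LocalSobolev` (`id_need_localSobolev_add_const`), `|Dg| = |Df|` (`id_need_grad_add_const`), `1 ≤ g`.
`id_need_leibniz hb.finite hg (id_theta_lipB o ha R).1`:  `|Du| ≤ |θ| |Df| + |g| lip θ ≤ θ |Df| + g a θ = θ |Df| + a u ≤ u (||Df|| + a)`  (`θ ≤ u`: `id_u_bounds`). -/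
theorem id_u_grad (hb : id_Base m o a) (hf : LocalSobolev m f) (hc : ∀ x, |f x| ≤ c) :
    LocalSobolev m (id_u o a R c f) ∧
      ∀ᵐ x ∂m, weakGradient m (id_u o a R c f) x ≤ id_u o a R c f x * (|weakGradient m f x| + a) := by
  have ha : 0 < a := hb.a_pos
  have hg : LocalSobolev m (fun x => f x + (c + 1)) := id_need_localSobolev_add_const hb.finite hf (c + 1)
  obtain ⟨h1, h2⟩ := id_need_leibniz hb.finite hg (id_theta_lipB o ha.le R).1
  refine ⟨h1, ?_⟩
  rw [id_need_grad_add_const m f (c + 1)] at h2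
  filter_upwards [h2] with x hx
  have hx' : weakGradient m (id_u o a R c f) x
      ≤ |id_theta o a R x| * weakGradient m f x + |f x + (c + 1)| * (localSlope (id_theta o a R) x).toReal := hx
  have hθ := id_theta_pos o a R x
  have hbd := id_u_bounds (o := o) (a := a) (R := R) hc x
  have hfx := abs_le.1 (hc x)
  have hg0 : 0 < f x + (c + 1) := by linarith [hfx.1]
  have hsl := id_theta_slope o ha.le R x
  rw [abs_of_pos hθ, abs_of_pos hg0] at hx'
  have e1 : id_theta o a R x * weakGradient m f x ≤ id_u o a R c f x * |weakGradient m f x| :=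
    (mul_le_mul_of_nonneg_left (le_abs_self _) hθ.le).trans
      (mul_le_mul_of_nonneg_right hbd.1 (abs_nonneg _))
  have e2 : (f x + (c + 1)) * (localSlope (id_theta o a R) x).toReal ≤ id_u o a R c f x * a := by
    calc (f x + (c + 1)) * (localSlope (id_theta o a R) x).toReal
        ≤ (f x + (c + 1)) * (a * id_theta o a R x) := mul_le_mul_of_nonneg_left hsl hg0.le
      _ = id_u o a R c f x * a := by unfold id_u; ring
  calc weakGradient m (id_u o a R c f) x
      ≤ id_theta o a R x * weakGradient m f x + (f x + (c + 1)) * (localSlope (id_theta o a R) x).toReal := hx'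
    _ ≤ id_u o a R c f x * |weakGradient m f x| + id_u o a R c f x * a := add_le_add e1 e2
    _ = id_u o a R c f x * (|weakGradient m f x| + a) := by ring

/-- scaling back: the conclusion of the core for `k u` gives the conclusion for `u`.
Proof: `|D(k u)| = k |Du|` a.e. (`id_need_grad_smul`), so `|Du| = k⁻¹ |D(k u)|` a.e. is in `L²` (`MemLp.const_mul`, `MemLp.ae_eq`) and `∫ |D(k u)|² = k² ∫ |Du|²`.
`Ch (k u) < ∞`;  `u = k⁻¹ (k u)`, `id_need_ch_smul k⁻¹`: `Ch u = ofReal (k⁻²) Ch (k u) ≤ ofReal (k⁻²) ofReal (½ k² ∫|Du|²) = ofReal (½ ∫ |Du|²)`. -/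
theorem id_scale_back (hfin : FiniteOnBoundedSets m) {u : X → ℝ} (hu : LocalSobolev m u) {k : ℝ} (hk : 0 < k)
    (h : MemLp (weakGradient m (fun x => k * u x)) 2 m ∧ cheegerEnergy m (fun x => k * u x)
      ≤ ENNReal.ofReal (1 / 2 * ∫ x, weakGradient m (fun x => k * u x) x ^ 2 ∂m)) :
    MemLp (weakGradient m u) 2 m ∧ cheegerEnergy m u ≤ ENNReal.ofReal (1 / 2 * ∫ x, weakGradient m u x ^ 2 ∂m) := by
  obtain ⟨h1, h2⟩ := h
  have hs := (id_need_grad_smul hfin hu k).2
  rw [abs_of_pos hk] at hs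
  have hk0 : k ≠ 0 := hk.ne'
  have hmem : MemLp (weakGradient m u) 2 m := by
    refine (h1.const_mul k⁻¹).ae_eq ?_
    filter_upwards [hs] with x hx
    rw [hx, ← mul_assoc, inv_mul_cancel₀ hk0, one_mul]
  refine ⟨hmem, ?_⟩
  have hint : ∫ x, weakGradient m (fun x => k * u x) x ^ 2 ∂m = k ^ 2 * ∫ x, weakGradient m u x ^ 2 ∂m := by
    rw [← integral_const_mul]
    refine integral_congr_ae ?_
    filter_upwards [hs] with x hx
    rw [hx, mul_pow]
  have hfinE : cheegerEnergy m (fun x => k * u x) < ∞ := lt_of_le_of_lt h2 ENNReal.ofReal_lt_top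
  have hsm := id_need_ch_smul k⁻¹ hfinE
  have hfun : (fun x => k⁻¹ * (k * u x)) = u := by
    funext x
    rw [← mul_assoc, inv_mul_cancel₀ hk0, one_mul]
  rw [hfun] at hsm
  rw [hsm]
  calc ENNReal.ofReal (k⁻¹ ^ 2) * cheegerEnergy m (fun x => k * u x)
      ≤ ENNReal.ofReal (k⁻¹ ^ 2)
          * ENNReal.ofReal (1 / 2 * ∫ x, weakGradient m (fun x => k * u x) x ^ 2 ∂m) :=
        mul_le_mul_right h2 _
    _ = ENNReal.ofReal (1 / 2 * ∫ x, weakGradient m u x ^ 2 ∂m) := by
        rw [← ENNReal.ofReal_mul (by positivity), hint]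
        congr 1
        field_simp

/-- the case `m = 0`: unfold `cheegerEnergy`; `MemLp u 2 0`; the constant sequence `fs n = 0` gives the value `0` in the set, so `sInf = 0`. -/
theorem id_cheeger_of_measure_zero (u : X → ℝ) : cheegerEnergy (0 : Measure X) u = 0 := by
  unfold cheegerEnergy
  rw [if_pos (by simp)]
  refine le_antisymm (sInf_le ⟨fun _ _ => 0, fun n => ⟨⟨0, LipschitzWith.const 0⟩, by simp⟩, by simp, by simp⟩)
    zero_le

end Claimed.Agent.R210.ID.WeightC
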