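/-
Row 210 (S0432), layer ID, architect helper226.   Step (2): the core applied to `v = √z u`, `u = θ (f + c + 1)`, `θ = exp(-a (d(·,o) - R)_+)`, `f` bounded frozen Sobolev.
Map of the layer: header of `ID/Ifc.lean`.
-/
import Claimed.Agent.R210.ID.Core
import Claimed.Agent.R210.ID.WeightC

set_option autoImplicit false
set_option linter.unusedSectionVars false

open Claims.C0366 Claims.C0366.WeakHessian
open Set Filter MeasureTheory
open scoped ENNReal NNReal Topology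

namespace Claimed.Agent.R210.ID.Weight

open Claimed.Agent.R210.Defs Claimed.Agent.R210.Defs2 Claimed.Agent.R210.ID.Need
open Claimed.Agent.R210.ID.Easy Claimed.Agent.R210.ID.Core Claimed.Agent.R210.ID.WeightA Claimed.Agent.R210.ID.WeightB
  Claimed.Agent.R210.ID.WeightC

variable {X : Type*} [MetricSpace X] [MeasurableSpace X] [BorelSpace X] [CompleteSpace X]
  [TopologicalSpace.SeparableSpace X] [ProperSpace X] {m : Measure X} {o : X} {a R c : ℝ} {f : X → ℝ}

/-- **Step (2)**   (ASSEMBLY).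
Case `m = 0` (`subst`): `MemLp _ 2 0` is trivial, `LocalSobolev` from `id_u_grad`, `id_cheeger_of_measure_zero`.
Case `m ≠ 0`: `z = (∫ u²)⁻¹ > 0` (`id_u_int_pos`), `k = √z > 0`, `v = fun x => k * u x`.  Apply `id_core hb` to `v` with `b = k (2c+1)`, `B = z (2c+1)²`, `D1 = weakGradient m f`, `c1 = a`:
 `hv`: `(id_need_grad_smul hb.finite hu k).1`;  `hpos`: `k > 0`, `u ≥ θ > 0`;  `hvb`: `u ≤ (2c+1) θ ≤ 2c+1`;  `hv2`: `(id_u_memLp …).const_mul k`;  `hnice`: `id_u_nice`;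
 `hD1`: `hf.2.2`;  `hD1'`: `|D(k u)| = |k| |Du| ≤ k u (||Df|| + a)` (`id_need_grad_smul`, `id_u_grad`).     Then `id_scale_back`. -/
theorem id_weight (hb : id_Base m o a) (hf : Sobolev m f) (hc : ∀ x, |f x| ≤ c) :
    Sobolev m (id_u o a R c f) ∧ cheegerEnergy m (id_u o a R c f)
      ≤ ENNReal.ofReal (1 / 2 * ∫ x, weakGradient m (id_u o a R c f) x ^ 2 ∂m) := by
  have hfm : AEStronglyMeasurable f m := hf.1.1
  obtain ⟨hu, hug⟩ := id_u_grad (R := R) hb hf.2.1 hc
  have hu2 : MemLp (id_u o a R c f) 2 m := id_u_memLp hb hfm hc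
  suffices h : MemLp (weakGradient m (id_u o a R c f)) 2 m ∧ cheegerEnergy m (id_u o a R c f)
      ≤ ENNReal.ofReal (1 / 2 * ∫ x, weakGradient m (id_u o a R c f) x ^ 2 ∂m) from ⟨⟨hu2, hu, h.1⟩, h.2⟩
  rcases eq_or_ne m 0 with hm | hm
  · subst hm
    refine ⟨by simp, ?_⟩
    rw [id_cheeger_of_measure_zero]
    exact zero_le
  have hc0 : 0 ≤ c := (abs_nonneg _).trans (hc o)
  have hI : 0 < ∫ x, id_u o a R c f x ^ 2 ∂m := id_u_int_pos hb hm hfm hc
  have hk : 0 < Real.sqrt ((∫ y, id_u o a R c f y ^ 2 ∂m)⁻¹) := Real.sqrt_pos.2 (inv_pos.2 hI)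
  refine id_scale_back hb.finite hu hk ?_
  obtain ⟨hv, hvg⟩ := id_need_grad_smul hb.finite hu (Real.sqrt ((∫ y, id_u o a R c f y ^ 2 ∂m)⁻¹))
  refine id_core (b := Real.sqrt ((∫ y, id_u o a R c f y ^ 2 ∂m)⁻¹) * (2 * c + 1)) (D1 := weakGradient m f) (c1 := a)
    hb hv ?_ ?_ (hu2.const_mul _) (id_u_nice hb hm hfm hc) hf.2.2 hb.a_pos.le ?_
  · intro x
    exact mul_pos hk ((id_theta_pos o a R x).trans_le (id_u_bounds hc x).1)
  · intro x
    refine mul_le_mul_of_nonneg_left ?_ hk.le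
    refine (id_u_bounds hc x).2.trans ?_
    have := id_theta_le_one o hb.a_pos.le R x
    nlinarith
  · filter_upwards [hvg, hug] with x h1 h2
    rw [h1, abs_of_pos hk, mul_assoc]
    exact mul_le_mul_of_nonneg_left h2 hk.le

end Claimed.Agent.R210.ID.Weight
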