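/-
Row 210 (S0432), layer ID, architect helper226.   Step (3), inside: from `u = θ (f + c + 1)` back to `f` (bounded, bounded support) by a cut-off, RS5 and pointwise minimality RS4'.
Map of the layer: header of `ID/Ifc.lean`.
-/
import Claimed.Agent.R210.ID.Weight
import Claimed.Agent.R210.ID.BackA

set_option autoImplicit false
set_option linter.unusedSectionVars false

open Claims.C0366 Claims.C0366.WeakHessian
open Set Filter MeasureTheory
open scoped ENNReal NNReal Topology

namespace Claimed.Agent.R210.ID.BackB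

open Claimed.Agent.R210.Defs Claimed.Agent.R210.Defs2 Claimed.Agent.R210.ID.Need
open Claimed.Agent.R210.ID.Easy Claimed.Agent.R210.ID.WeightA Claimed.Agent.R210.ID.WeightB Claimed.Agent.R210.ID.Weight
  Claimed.Agent.R210.ID.BackA

variable {X : Type*} [MetricSpace X] [MeasurableSpace X] [BorelSpace X] [CompleteSpace X]
  [TopologicalSpace.SeparableSpace X] [ProperSpace X] {m : Measure X} {o : X} {a R0 c : ℝ} {f : X → ℝ}

/-- `f = χ u - (c+1) χ`, `χ = id_cut o (R0+2)`, `u = id_u o a (R0+2) c f`.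
(`d ≤ R0+1`: `χ = θ = 1`;   `R0+1 < d ≤ R0+2`: `θ = 1`, `f = 0`;   `R0+2 < d`: `χ = 0`, `f = 0`.) -/
theorem id_back_fun_eq (hsupp : ∀ x, R0 ≤ dist x o → f x = 0) :
    (fun x => id_cut o (R0 + 2) x * id_u o a (R0 + 2) c f x + (-(c + 1)) * id_cut o (R0 + 2) x) = f := by
  funext x
  rcases le_or_gt (dist x o) (R0 + 2) with h2 | h2
  · have hθ : id_u o a (R0 + 2) c f x = f x + (c + 1) := by
      show id_theta o a (R0 + 2) x * (f x + (c + 1)) = _
      rw [id_theta_eq_one o a h2, one_mul]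
    rw [hθ]
    rcases le_or_gt (dist x o) (R0 + 1) with h1 | h1
    · rw [id_cut_eq_one (by linarith)]
      ring
    · rw [hsupp x (by linarith)]
      ring
  · rw [id_cut_eq_zero h2.le, hsupp x (by linarith)]
    ring

variable {Rel : (X → ℝ) → (X → ℝ) → Prop} {rs : (X → ℝ) → X → ℝ}

/-- the relaxed slope `G = χ rs u + (|u| + c + 1) lip χ` of `f`. -/
theorem id_back_rel (hRS : id_RS m Rel rs) (hsupp : ∀ x, R0 ≤ dist x o → f x = 0)
    (hu : MemLp (id_u o a (R0 + 2) c f) 2 m) (hch : cheegerEnergy m (id_u o a (R0 + 2) c f) < ∞) :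
    Rel f (fun x => (|id_cut o (R0 + 2) x| * rs (id_u o a (R0 + 2) c f) x
        + |id_u o a (R0 + 2) c f x| * (localSlope (id_cut o (R0 + 2)) x).toReal)
      + |-(c + 1)| * (localSlope (id_cut o (R0 + 2)) x).toReal) := by
  have h1 := hRS.mul_lip (hRS.spec hu hch) (id_cut_lipB o (R0 + 2))
  have h2 := hRS.smul (-(c + 1)) (hRS.lip (id_cut_lipC o (R0 + 2)))
  have h3 := hRS.add h1 h2
  rw [id_back_fun_eq hsupp] at h3
  exact h3

/-- inside: `rs f ≤ rs u = |Du| = |Df|` a.e. on `ball o (R0+1)`.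
Proof: `u = id_u o a (R0+2) c f`.  `id_weight hb hf hc`: `Sobolev m u`, energy inequality (so `Ch u < ∞`);  `id_of_energy_le hb.finite hRS`: `|Du| = rs u` a.e.
`id_back_rel`: `Rel f G`;  `hRS.energy_le`: `Ch f < ∞`;  `hRS.min`: `rs f ≤ G` a.e.    If `d(x,o) < R0+1`: `lip χ = 0` (`id_cut_slope_zero`), `χ = 1`, so `G x = rs u x = |Du| x`.
Locality `id_need_local` for `u` and `w = fun x => f x + (c+1)` (`id_need_localSobolev_add_const`): `u x = w x` as `θ x = 1` (`id_theta_eq_one`), and `|Dw| = |Df|` (`id_need_grad_add_const`). -/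
theorem id_back_inside (hRS : id_RS m Rel rs) (hb : id_Base m o a) (hf : Sobolev m f) (hc : ∀ x, |f x| ≤ c)
    (hsupp : ∀ x, R0 ≤ dist x o → f x = 0) :
    cheegerEnergy m f < ∞ ∧ ∀ᵐ x ∂m, dist x o < R0 + 1 → rs f x ≤ weakGradient m f x := by
  obtain ⟨hu, hue⟩ := id_weight (R := R0 + 2) hb hf hc
  have hch : cheegerEnergy m (id_u o a (R0 + 2) c f) < ∞ := hue.trans_lt ENNReal.ofReal_lt_top
  have heq := (id_of_energy_le hb.finite hRS hu hue).1
  have hrel := id_back_rel hRS hsupp hu.1 hch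
  refine ⟨(hRS.energy_le hrel).trans_lt ENNReal.ofReal_lt_top, ?_⟩
  have hw : LocalSobolev m (fun x => f x + (c + 1)) := id_need_localSobolev_add_const hb.finite hf.2.1 (c + 1)
  filter_upwards [hRS.min hrel, heq, id_need_local hu.2.1 hw] with x h1 h2 h3 hx
  have hs : localSlope (id_cut o (R0 + 2)) x = 0 := id_cut_slope_zero (by linarith)
  have hχ : id_cut o (R0 + 2) x = 1 := id_cut_eq_one (by linarith)
  have hux : id_u o a (R0 + 2) c f x = f x + (c + 1) := by
    show id_theta o a (R0 + 2) x * (f x + (c + 1)) = _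
    rw [id_theta_eq_one o a (by linarith), one_mul]
  rw [hs, hχ] at h1
  have h4 := h3 hux
  rw [id_need_grad_add_const] at h4
  rw [← h4, h2]
  simpa using h1

end Claimed.Agent.R210.ID.BackB
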