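/-
Row 210 (S0432), layer ID, architect helper226.   Step (3): the energy inequality for bounded frozen Sobolev functions with bounded support.
Map of the layer: header of `ID/Ifc.lean`.
-/
import Claimed.Agent.R210.ID.BackB

set_option autoImplicit false
set_option linter.unusedSectionVars false

open Claims.C0366 Claims.C0366.WeakHessian
open Set Filter MeasureTheory
open scoped ENNReal NNReal Topology

namespace Claimed.Agent.R210.ID.Back

open Claimed.Agent.R210.Defs Claimed.Agent.R210.Defs2 Claimed.Agent.R210.ID.Need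
open Claimed.Agent.R210.ID.Easy Claimed.Agent.R210.ID.BackA Claimed.Agent.R210.ID.BackB

variable {X : Type*} [MetricSpace X] [MeasurableSpace X] [BorelSpace X] [CompleteSpace X]
  [TopologicalSpace.SeparableSpace X] [ProperSpace X] {m : Measure X} {o : X} {a R0 c : ℝ} {f : X → ℝ}
  {Rel : (X → ℝ) → (X → ℝ) → Prop} {rs : (X → ℝ) → X → ℝ}

/-- `f = χ' f`, `χ' = id_cut o (R0+1)`. -/
theorem id_back_fun_eq' (hsupp : ∀ x, R0 ≤ dist x o → f x = 0) : (fun x => id_cut o (R0 + 1) x * f x) = f := by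
  funext x
  rcases le_or_gt R0 (dist x o) with h | h
  · rw [hsupp x h, mul_zero]
  · rw [id_cut_eq_one (by linarith), one_mul]

/-- outside: `rs f ≤ χ' rs f + |f| lip χ' = 0` a.e. off `ball o (R0+1)`.
Proof: `hRS.mul_lip (hRS.spec hf hch) (id_cut_lipB o (R0+1))`, rewrite with `id_back_fun_eq'`, `hRS.min`; at `x` with `R0+1 ≤ d(x,o)`: `χ' x = 0` (`id_cut_eq_zero`), `f x = 0`. -/
theorem id_back_outside (hRS : id_RS m Rel rs) (hf : MemLp f 2 m) (hch : cheegerEnergy m f < ∞)
    (hsupp : ∀ x, R0 ≤ dist x o → f x = 0) : ∀ᵐ x ∂m, R0 + 1 ≤ dist x o → rs f x ≤ 0 := by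
  have h1 := hRS.mul_lip (hRS.spec hf hch) (id_cut_lipB o (R0 + 1))
  rw [id_back_fun_eq' hsupp] at h1
  filter_upwards [hRS.min h1] with x hx h
  rw [id_cut_eq_zero h, hsupp x (by linarith)] at hx
  simpa using hx

/-- `rs f ≤ |Df|` a.e. ⟹ the energy inequality.
Proof: `hRS.energy_eq`, `0 ≤ rs f` a.e. (`hRS.nonneg (hRS.spec …)`), `rs² ≤ |Df|²` a.e., `integral_mono_ae` (`MemLp.integrable_sq`), `ENNReal.ofReal_le_ofReal`. -/
theorem id_energy_le_of_rs_le (hRS : id_RS m Rel rs) (hf : Sobolev m f) (hch : cheegerEnergy m f < ∞)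
    (hle : ∀ᵐ x ∂m, rs f x ≤ weakGradient m f x) :
    cheegerEnergy m f ≤ ENNReal.ofReal (1 / 2 * ∫ x, weakGradient m f x ^ 2 ∂m) := by
  have hrel := hRS.spec hf.1 hch
  rw [hRS.energy_eq hf.1 hch]
  refine ENNReal.ofReal_le_ofReal ?_
  refine mul_le_mul_of_nonneg_left ?_ (by norm_num)
  refine integral_mono_ae (hRS.memLp hrel).2.integrable_sq hf.2.2.integrable_sq ?_
  filter_upwards [hle, hRS.nonneg hrel] with x h1 h2
  exact pow_le_pow_left₀ h2 h1 2

/-- **Step (3).** -/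
theorem id_back (hb : id_Base m o a) (hf : Sobolev m f) (hc : ∀ x, |f x| ≤ c)
    (hsupp : ∀ x, R0 ≤ dist x o → f x = 0) :
    cheegerEnergy m f ≤ ENNReal.ofReal (1 / 2 * ∫ x, weakGradient m f x ^ 2 ∂m) := by
  obtain ⟨Rel, rs, hRS⟩ := id_need_rs (m := m) hb.finite
  obtain ⟨hch, hin⟩ := id_back_inside hRS hb hf hc hsupp
  have hout := id_back_outside hRS hf.1 hch hsupp
  have hnn := id_need_grad_nonneg m f
  refine id_energy_le_of_rs_le hRS hf hch ?_
  filter_upwards [hin, hout, hnn] with x h1 h2 h3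
  rcases lt_or_ge (dist x o) (R0 + 1) with h | h
  · exact h1 h
  · exact (h2 h).trans h3

end Claimed.Agent.R210.ID.Back
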