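/-
Row 210 (S0432), layer ID, architect helper226.   Step (4), the approximating sequence `f_n = χ_n T_n f` (truncation at height `n`, cut-off at radius `n+1`): elementary facts, `L²` convergence.
Map of the layer: header of `ID/Ifc.lean`.
-/
import Claimed.Agent.R210.ID.BackA

set_option autoImplicit false
set_option linter.unusedSectionVars false

open Claims.C0366 Claims.C0366.WeakHessian
open Set Filter MeasureTheory
open scoped ENNReal NNReal Topology

namespace Claimed.Agent.R210.ID.GenA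

open Claimed.Agent.R210.Defs Claimed.Agent.R210.ID.BackA

variable {X : Type*} [MetricSpace X] [MeasurableSpace X] [BorelSpace X] {m : Measure X}

/-- `f_n = χ_n · T_n f`, `χ_n = id_cut o (n+1)`, `T_n s = max (-n) (min n s)`. -/
noncomputable def id_fn (o : X) (f : X → ℝ) (n : ℕ) (x : X) : ℝ :=
  id_cut o ((n : ℝ) + 1) x * max (-(n : ℝ)) (min (n : ℝ) (f x))

theorem id_trunc_abs_le (n : ℕ) (s : ℝ) : |max (-(n : ℝ)) (min (n : ℝ) s)| ≤ |s| ∧ |max (-(n : ℝ)) (min (n : ℝ) s)| ≤ n := by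
  have hn : (0 : ℝ) ≤ n := Nat.cast_nonneg n
  constructor
  · rw [abs_le]
    exact ⟨le_max_of_le_right (le_min (by linarith [abs_nonneg s]) (neg_abs_le s)),
      max_le (by linarith [abs_nonneg s]) ((min_le_right _ _).trans (le_abs_self s))⟩
  · rw [abs_le]
    exact ⟨le_max_left _ _, max_le (by linarith) (min_le_left _ _)⟩

theorem id_fn_bdd (o : X) (f : X → ℝ) (n : ℕ) (x : X) : |id_fn o f n x| ≤ n := by
  unfold id_fn
  rw [abs_mul, abs_of_nonneg (id_cut_mem o _ x).1]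
  calc id_cut o ((n : ℝ) + 1) x * |max (-(n : ℝ)) (min (n : ℝ) (f x))|
      ≤ 1 * (n : ℝ) := mul_le_mul (id_cut_mem o _ x).2 (id_trunc_abs_le n (f x)).2 (abs_nonneg _) zero_le_one
    _ = n := one_mul _

theorem id_fn_supp (o : X) (f : X → ℝ) (n : ℕ) (x : X) (h : (n : ℝ) + 1 ≤ dist x o) : id_fn o f n x = 0 := by
  unfold id_fn
  rw [id_cut_eq_zero h, zero_mul]

theorem id_fn_abs_le (o : X) (f : X → ℝ) (n : ℕ) (x : X) : |id_fn o f n x| ≤ |f x| := by
  unfold id_fn
  rw [abs_mul, abs_of_nonneg (id_cut_mem o _ x).1]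
  calc id_cut o ((n : ℝ) + 1) x * |max (-(n : ℝ)) (min (n : ℝ) (f x))|
      ≤ 1 * |f x| := mul_le_mul (id_cut_mem o _ x).2 (id_trunc_abs_le n (f x)).1 (abs_nonneg _) zero_le_one
    _ = |f x| := one_mul _

/-- `id_fn o f n x = f x` as soon as `n ≥ max |f x| (dist x o)`. -/
theorem id_fn_eventually_eq (o : X) (f : X → ℝ) (x : X) : ∀ᶠ n in atTop, id_fn o f n x = f x := by
  obtain ⟨n0, hn0⟩ := exists_nat_ge (max |f x| (dist x o))
  filter_upwards [eventually_ge_atTop n0] with n hn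
  have hn' : max |f x| (dist x o) ≤ (n : ℝ) := hn0.trans (by exact_mod_cast hn)
  have h1 : |f x| ≤ n := (le_max_left _ _).trans hn'
  have h2 : dist x o ≤ n := (le_max_right _ _).trans hn'
  unfold id_fn
  rw [id_cut_eq_one (by linarith), one_mul, min_eq_right (abs_le.1 h1).2, max_eq_right (abs_le.1 h1).1]

theorem id_fn_aesm (o : X) {f : X → ℝ} (hf : AEStronglyMeasurable f m) (n : ℕ) :
    AEStronglyMeasurable (id_fn o f n) m := by
  have h1 : AEStronglyMeasurable (id_cut o ((n : ℝ) + 1)) m :=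
    (id_cut_lipschitz o _).continuous.aestronglyMeasurable
  have h2 : AEStronglyMeasurable (fun x => max (-(n : ℝ)) (min (n : ℝ) (f x))) m :=
    (continuous_const.max (continuous_const.min continuous_id)).comp_aestronglyMeasurable hf
  exact h1.mul h2

theorem id_fn_memLp (o : X) {f : X → ℝ} (hf : MemLp f 2 m) (n : ℕ) : MemLp (id_fn o f n) 2 m :=
  hf.mono (id_fn_aesm o hf.1 n) (Eventually.of_forall fun x => by
    rw [Real.norm_eq_abs, Real.norm_eq_abs]
    exact id_fn_abs_le o f n x)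

/-- dominated convergence: `|f_n - f|² ≤ 4 f²`, `f_n → f` pointwise.
(e.g. `eLpNorm_eq_lintegral_rpow_enorm`/`eLpNorm_two…`, `tendsto_lintegral_of_dominated_convergence`; or `Lp.tendsto…`: `tendsto_Lp_of_tendsto_ae` needs uniform integrability, the direct way is simpler.) -/
theorem id_fn_tendsto (o : X) {f : X → ℝ} (hf : MemLp f 2 m) :
    Tendsto (fun n => eLpNorm (fun x => id_fn o f n x - f x) 2 m) atTop (𝓝 0) := by
  have h2 : (2 : ℝ≥0∞) ≠ 0 := by norm_num
  have h2' : (2 : ℝ≥0∞) ≠ ∞ := by norm_num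
  have hlim : Tendsto (fun n => ∫⁻ x, ‖id_fn o f n x - f x‖ₑ ^ (2 : ℝ≥0∞).toReal ∂m) atTop
      (𝓝 (∫⁻ _, 0 ∂m)) := by
    refine tendsto_lintegral_of_dominated_convergence'
      (fun x => (2 * ‖f x‖ₑ) ^ (2 : ℝ≥0∞).toReal) ?_ ?_ ?_ ?_
    · intro n
      exact (((id_fn_aesm o hf.1 n).sub hf.1).enorm).pow_const _
    · intro n
      refine Eventually.of_forall fun x => ?_
      refine ENNReal.rpow_le_rpow ?_ ENNReal.toReal_nonneg
      have h3 : ‖id_fn o f n x‖ₑ ≤ ‖f x‖ₑ := by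
        rw [Real.enorm_eq_ofReal_abs, Real.enorm_eq_ofReal_abs]
        exact ENNReal.ofReal_le_ofReal (id_fn_abs_le o f n x)
      calc ‖id_fn o f n x - f x‖ₑ ≤ ‖id_fn o f n x‖ₑ + ‖f x‖ₑ := enorm_sub_le
        _ ≤ ‖f x‖ₑ + ‖f x‖ₑ := by gcongr
        _ = 2 * ‖f x‖ₑ := (two_mul _).symm
    · simp_rw [ENNReal.mul_rpow_of_nonneg _ _ (ENNReal.toReal_nonneg (a := 2))]
      rw [lintegral_const_mul' _ _ (by simp)]
      exact ENNReal.mul_ne_top (by simp)
        (lintegral_rpow_enorm_lt_top_of_eLpNorm_lt_top h2 h2' hf.2).ne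
    · refine Eventually.of_forall fun x => ?_
      refine tendsto_const_nhds.congr' ?_
      filter_upwards [id_fn_eventually_eq o f x] with n hn
      rw [hn, sub_self, enorm_zero, ENNReal.zero_rpow_of_pos (by simp)]
  rw [lintegral_zero] at hlim
  have h4 := (ENNReal.continuous_rpow_const (y := 1 / (2 : ℝ≥0∞).toReal)).tendsto 0 |>.comp hlim
  rw [ENNReal.zero_rpow_of_pos (by simp)] at h4
  refine h4.congr fun n => ?_
  rw [eLpNorm_eq_lintegral_rpow_enorm_toReal h2 h2']
  rfl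

end Claimed.Agent.R210.ID.GenA
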