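/-
Row 210 (S0432), layer ID, architect helper226.   Step (4): `f_n = χ_n T_n f` is frozen Sobolev, `|Df_n| ≤ |Df| + |f| 1_{d ≥ n}`.
Map of the layer: header of `ID/Ifc.lean`.
-/
import Claimed.Agent.R210.ID.Easy
import Claimed.Agent.R210.ID.GenA

set_option autoImplicit false
set_option linter.unusedSectionVars false

open Claims.C0366 Claims.C0366.WeakHessian
open Set Filter MeasureTheory
open scoped ENNReal NNReal Topology

namespace Claimed.Agent.R210.ID.GenB

open Claimed.Agent.R210.Defs Claimed.Agent.R210.Defs2 Claimed.Agent.R210.ID.Need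
open Claimed.Agent.R210.ID.Easy Claimed.Agent.R210.ID.BackA Claimed.Agent.R210.ID.GenA

variable {X : Type*} [MetricSpace X] [MeasurableSpace X] [BorelSpace X] [CompleteSpace X]
  [TopologicalSpace.SeparableSpace X] [ProperSpace X] {m : Measure X}

/-- Proof: `g = fun x => max (-n) (min n (f x))`: `id_need_clamp hfin hf.2.1 (-n) n` gives `LocalSobolev m g`, `|Dg| ≤ |Df|` a.e.
`id_need_leibniz hfin hg (id_cut_lipB o (n+1)).1`:  `LocalSobolev m (id_fn o f n)` and `|Df_n| ≤ |χ| |Dg| + |g| lip χ`;   `|χ| ≤ 1` (`id_cut_mem`), `0 ≤ |Dg|` a.e., `|g| ≤ |f|` (`id_trunc_abs_le`),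
`lip χ ≤ 1` (`id_cut_slope_le`), `lip χ = 0` if `d(x,o) < n = (n+1) - 1` (`id_cut_slope_zero`). -/
theorem id_fn_grad (hfin : FiniteOnBoundedSets m) (o : X) {f : X → ℝ} (hf : Sobolev m f) (n : ℕ) :
    LocalSobolev m (id_fn o f n) ∧ ∀ᵐ x ∂m, weakGradient m (id_fn o f n) x
      ≤ weakGradient m f x + |f x| * (if (n : ℝ) ≤ dist x o then 1 else 0) := by
  obtain ⟨hg, hgle⟩ := id_need_clamp hfin hf.2.1 (-(n : ℝ)) (n : ℝ)
  obtain ⟨h1, h2⟩ := id_need_leibniz hfin hg (id_cut_lipB o ((n : ℝ) + 1)).1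
  have e : (fun x => id_cut o ((n : ℝ) + 1) x * max (-(n : ℝ)) (min (n : ℝ) (f x))) = id_fn o f n := rfl
  rw [e] at h1 h2
  refine ⟨h1, ?_⟩
  have hg0 : ∀ᵐ x ∂m, 0 ≤ weakGradient m (fun x => max (-(n : ℝ)) (min (n : ℝ) (f x))) x :=
    (id_minimal_spec hg).1.2.1
  filter_upwards [h2, hgle, hg0] with x hx hx1 hx0
  refine hx.trans ?_
  have c := id_cut_mem o ((n : ℝ) + 1) x
  have a1 : |id_cut o ((n : ℝ) + 1) x| * weakGradient m (fun x => max (-(n : ℝ)) (min (n : ℝ) (f x))) x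
      ≤ weakGradient m f x := by
    rw [abs_of_nonneg c.1]
    calc _ ≤ 1 * weakGradient m (fun x => max (-(n : ℝ)) (min (n : ℝ) (f x))) x :=
          mul_le_mul_of_nonneg_right c.2 hx0
      _ ≤ weakGradient m f x := by rw [one_mul]; exact hx1
  have a2 : |max (-(n : ℝ)) (min (n : ℝ) (f x))| * (localSlope (id_cut o ((n : ℝ) + 1)) x).toReal
      ≤ |f x| * (if (n : ℝ) ≤ dist x o then 1 else 0) := by
    split_ifs with hd
    · exact mul_le_mul (id_trunc_abs_le n (f x)).1 (id_cut_slope_le _ _ _) ENNReal.toReal_nonneg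
        (abs_nonneg _)
    · rw [id_cut_slope_zero (by linarith)]
      simp
  exact add_le_add a1 a2

/-- `id_fn_memLp`, `id_fn_grad`, `id_memLp_of_le` with `G = |Df| + |f|`. -/
theorem id_fn_sobolev (hfin : FiniteOnBoundedSets m) (o : X) {f : X → ℝ} (hf : Sobolev m f) (n : ℕ) :
    Sobolev m (id_fn o f n) := by
  obtain ⟨h1, h2⟩ := id_fn_grad hfin o hf n
  have hmin := id_minimal_spec h1
  refine ⟨id_fn_memLp o hf.1 n, h1, ?_⟩
  have hG : MemLp (fun x => weakGradient m f x + |f x|) 2 m := by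
    have := hf.2.2.add hf.1.norm
    simp only [Real.norm_eq_abs] at this
    exact this
  refine id_memLp_of_le hmin.1.1 hmin.1.2.1 hG ?_
  filter_upwards [h2] with x hx
  refine hx.trans ?_
  have : |f x| * (if (n : ℝ) ≤ dist x o then 1 else 0) ≤ |f x| := by
    split_ifs
    · rw [mul_one]
    · rw [mul_zero]; exact abs_nonneg _
  linarith

end Claimed.Agent.R210.ID.GenB
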