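/-
Row 210 (S0432), layer ID, architect helper226.   Step (4): the energy inequality for all frozen Sobolev functions.
Map of the layer: header of `ID/Ifc.lean`.
-/
import Claimed.Agent.R210.ID.Back
import Claimed.Agent.R210.ID.GenB

set_option autoImplicit false
set_option linter.unusedSectionVars false

open Claims.C0366 Claims.C0366.WeakHessian
open Set Filter MeasureTheory
open scoped ENNReal NNReal Topology

namespace Claimed.Agent.R210.ID.General

open Claimed.Agent.R210.Defs Claimed.Agent.R210.Defs2 Claimed.Agent.R210.ID.Need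
open Claimed.Agent.R210.ID.Easy Claimed.Agent.R210.ID.Back Claimed.Agent.R210.ID.GenA Claimed.Agent.R210.ID.GenB

variable {X : Type*} [MetricSpace X] [MeasurableSpace X] [BorelSpace X] [CompleteSpace X]
  [TopologicalSpace.SeparableSpace X] [ProperSpace X] {m : Measure X}

/-- measure theory.
Proof: `I_n := ∫ (D + |h| 1_{n ≤ d})² → ∫ D²` by `tendsto_integral_of_dominated_convergence` (bound `(|D| + |h|)²`, integrable; pointwise: the indicator vanishes for `n > d(x,o)`);
`∫ Ds_n² ≤ I_n` (`integral_mono_ae`, `0 ≤ Ds n ≤ …`);   so `liminf ofReal (½ ∫ Ds_n²) ≤ liminf ofReal (½ I_n) = ofReal (½ ∫ D²)` (`Filter.liminf_le_liminf`, `Tendsto.liminf_eq`, `ENNReal.continuous_ofReal`). -/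
theorem id_liminf_le (o : X) {D h : X → ℝ} {Ds : ℕ → X → ℝ} (hD : MemLp D 2 m) (hh : MemLp h 2 m)
    (hDs : ∀ n, MemLp (Ds n) 2 m) (h0 : ∀ n, ∀ᵐ x ∂m, 0 ≤ Ds n x)
    (hle : ∀ n, ∀ᵐ x ∂m, Ds n x ≤ D x + |h x| * (if (n : ℝ) ≤ dist x o then 1 else 0)) :
    Filter.liminf (fun n => ENNReal.ofReal (1 / 2 * ∫ x, Ds n x ^ 2 ∂m)) atTop
      ≤ ENNReal.ofReal (1 / 2 * ∫ x, D x ^ 2 ∂m) := by
  set G : ℕ → X → ℝ := fun n x => D x + |h x| * (if (n : ℝ) ≤ dist x o then 1 else 0) with hG
  have hind : ∀ n : ℕ, Measurable (fun x : X => if (n : ℝ) ≤ dist x o then (1 : ℝ) else 0) :=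
    fun n => Measurable.ite (measurableSet_le measurable_const (measurable_id.dist measurable_const))
      measurable_const measurable_const
  have hHn : ∀ n : ℕ,
      MemLp (fun x => |h x| * (if (n : ℝ) ≤ dist x o then (1 : ℝ) else 0)) 2 m := fun n =>
    hh.mono (hh.abs.aestronglyMeasurable.mul (hind n).aestronglyMeasurable)
      (Eventually.of_forall fun x => by split_ifs <;> simp)
  have hGn : ∀ n, MemLp (G n) 2 m := fun n => hD.add (hHn n)
  have hlim : Tendsto (fun n => ∫ x, (G n x) ^ 2 ∂m) atTop (𝓝 (∫ x, D x ^ 2 ∂m)) := by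
    refine tendsto_integral_of_dominated_convergence (fun x => (|D x| + |h x|) ^ 2)
      (fun n => (hGn n).integrable_sq.aestronglyMeasurable) ((hD.abs.add hh.abs).integrable_sq)
      ?_ ?_
    · intro n
      refine Eventually.of_forall fun x => ?_
      rw [Real.norm_eq_abs, abs_pow]
      refine pow_le_pow_left₀ (abs_nonneg _) ?_ 2
      refine (abs_add_le _ _).trans (add_le_add le_rfl ?_)
      split_ifs <;> simp
    · refine Eventually.of_forall fun x => ?_
      refine tendsto_const_nhds.congr' ?_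
      obtain ⟨N, hN⟩ := exists_nat_gt (dist x o)
      filter_upwards [eventually_ge_atTop N] with n hn
      have h1 : ¬ ((n : ℝ) ≤ dist x o) := by
        rw [not_le]
        exact hN.trans_le (by exact_mod_cast hn)
      simp [hG, h1]
  have hmono : ∀ n, ∫ x, Ds n x ^ 2 ∂m ≤ ∫ x, (G n x) ^ 2 ∂m := fun n =>
    integral_mono_ae (hDs n).integrable_sq (hGn n).integrable_sq (by
      filter_upwards [h0 n, hle n] with x h1 h2
      exact pow_le_pow_left₀ h1 h2 2)
  have hlim2 : Tendsto (fun n => ENNReal.ofReal (1 / 2 * ∫ x, (G n x) ^ 2 ∂m)) atTop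
      (𝓝 (ENNReal.ofReal (1 / 2 * ∫ x, D x ^ 2 ∂m))) :=
    (ENNReal.continuous_ofReal.tendsto _).comp (hlim.const_mul (1 / 2))
  calc Filter.liminf (fun n => ENNReal.ofReal (1 / 2 * ∫ x, Ds n x ^ 2 ∂m)) atTop
      ≤ Filter.liminf (fun n => ENNReal.ofReal (1 / 2 * ∫ x, (G n x) ^ 2 ∂m)) atTop :=
        Filter.liminf_le_liminf (Eventually.of_forall fun n =>
          ENNReal.ofReal_le_ofReal (by have := hmono n; linarith))
    _ = ENNReal.ofReal (1 / 2 * ∫ x, D x ^ 2 ∂m) := hlim2.liminf_eq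

/-- **Step (4).** -/
theorem id_general {o : X} {a : ℝ} (hb : id_Base m o a) {f : X → ℝ} (hf : Sobolev m f) :
    cheegerEnergy m f ≤ ENNReal.ofReal (1 / 2 * ∫ x, weakGradient m f x ^ 2 ∂m) := by
  have hS := fun n => id_fn_sobolev hb.finite o hf n
  calc cheegerEnergy m f
      ≤ Filter.liminf (fun n => cheegerEnergy m (id_fn o f n)) atTop :=
        id_need_ch_lsc hf.1 (id_fn_tendsto o hf.1)
    _ ≤ Filter.liminf (fun n => ENNReal.ofReal (1 / 2 * ∫ x, weakGradient m (id_fn o f n) x ^ 2 ∂m)) atTop :=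
        Filter.liminf_le_liminf (Eventually.of_forall fun n =>
          id_back hb (hS n) (id_fn_bdd o f n) (id_fn_supp o f n))
    _ ≤ ENNReal.ofReal (1 / 2 * ∫ x, weakGradient m f x ^ 2 ∂m) :=
        id_liminf_le o hf.2.2 hf.1 (fun n => (hS n).2.2) (fun n => id_need_grad_nonneg m _)
          (fun n => (id_fn_grad hb.finite o hf n).2)

end Claimed.Agent.R210.ID.General
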