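/-
Row 210 (S0432), layer ID (identification of the frozen Sobolev class / weak gradient with the Cheeger energy / minimal relaxed slope).      Architect: helper226.
INTERFACE: consumers `import Claimed.Agent.R210.ID.Ifc`, `open Claimed.Agent.R210.ID.Ifc`.      Contract: `git show origin/helper928:docs/R210_wave2.md`, section ID.

EXPORTS   (`hS : Std m K N`, `X` complete separable proper)
  id_sobolev_iff   (ID1)   `Sobolev m f ↔ MemLp f 2 m ∧ cheegerEnergy m f < ∞`
  id_grad_eq       (ID2)   `Sobolev m f → weakGradient m f =ᵐ[m] rs_slope m f`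
  id_cheeger_eq    (ID3)   `Sobolev m f → cheegerEnergy m f = ENNReal.ofReal (energy m f / 2)`        (`id_cheeger_eq'` : with `1 / 2 * ∫ |Df|²`)
  id_cheeger_toReal        `Sobolev m f → (cheegerEnergy m f).toReal = energy m f / 2`
  id_goodExp               `∃ a, GoodExp m o a`

MAP OF THE LAYER   (file : content;  [P] = assembly already proved)
  Need      everything used from RS, TP, CU, LI, CD, HF, KU (all discharged from their Ifc);  `id_Base m o a`;  the bundle `id_RS m Rel rs`
  Easy      (1) `Ch f < ∞ ⟹ Sobolev, |Df| ≤ rs f` [P];   `id_of_energy_le`: the energy inequality `Ch f ≤ ½∫|Df|²` implies ID2, ID3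
  PlanA     `dens m ρ`, change of variables            Plan   `id_plan`: test plan `π` with `(e_r)_# π = ρ_{rt} m`, `∫∫ speed² ≤ t ∫_0^t I(ρ_s) ds`   (KU2 + LI1')
  WugA      w.u.g. inequality for all test plans       WugB   Young + Tonelli along `π`          WugC   `∫ g (ρ_0 - ρ_1) dm ≤ ∫ |g(γ_1) - g(γ_0)| dπ`
  StepA     calculus of `ψ_η = log(s²+η) - log η`       StepB  `B = 4(|Dv|/v)²`, `𝔅(s) = ∫ B ρ_s`, `g = ψ_η ∘ v`
  Step      `id_step_eta` (assembly), `id_step` [P]:  `∫_0^t I(ρ_s) ds ≤ t ∫_0^1 𝔅(rt) dr`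
  CoreA     `t → 0` (real analysis)                    CoreB  `∫ |w| |h_s| → 0`                  CoreC  `𝔅(s) ≤ 4∫|Dv|² + ε` for small `s`
  Core      `id_core` [P]:  `v > 0` bounded, `v²` nice, `|Dv| ≤ v (|D1| + c1)`  ⟹  `Ch v ≤ ½ ∫ |Dv|²`
  WeightA   `θ = exp(-a (d-R)_+)`                       WeightB `u = θ (f+c+1)`: `z u²` nice       WeightC `|Du| ≤ u (|Df| + a)`, scaling
  Weight    (2) `id_weight` (assembly):  `Ch u ≤ ½ ∫ |Du|²`
  BackA     cut-offs `id_cut`                          BackB  inside: `rs f ≤ |Df|` on `B_{R0+1}`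
  Back      (3) `id_back` [P]:  energy inequality for bounded `f` with bounded support
  GenA      `f_n = χ_n T_n f → f` in `L²`               GenB   `|Df_n| ≤ |Df| + |f| 1_{d ≥ n}`
  General   (4) `id_general` [P]:  energy inequality for all frozen Sobolev `f`
  Exp       `id_goodExp`
-/
import Claimed.Agent.R210.ID.General
import Claimed.Agent.R210.ID.Exp

set_option autoImplicit false
set_option linter.unusedSectionVars false

open Claims.C0366 Claims.C0366.WeakHessian
open Set Filter MeasureTheory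
open scoped ENNReal NNReal Topology

namespace Claimed.Agent.R210.ID.Ifc

open Claimed.Agent.R210.Defs Claimed.Agent.R210.Defs2 Claimed.Agent.R210.ID.Need
open Claimed.Agent.R210.RS.Defs (rs_IsRelaxed rs_slope)

variable {X : Type*} [MetricSpace X] [MeasurableSpace X] [BorelSpace X] [CompleteSpace X]
  [TopologicalSpace.SeparableSpace X] [ProperSpace X] {m : Measure X} {K N : ℝ} {f : X → ℝ}

/-- CD2 ⟹ `GoodExp`. -/
theorem id_goodExp (hS : Std m K N) (o : X) : ∃ a : ℝ, GoodExp m o a := Exp.id_goodExp hS o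

/-- the energy inequality. -/
theorem id_energy_le (hS : Std m K N) (hf : Sobolev m f) :
    cheegerEnergy m f ≤ ENNReal.ofReal (1 / 2 * ∫ x, weakGradient m f x ^ 2 ∂m) := by
  rcases isEmpty_or_nonempty X with hX | ⟨⟨o⟩⟩
  · rw [Measure.eq_zero_of_isEmpty m, WeightC.id_cheeger_of_measure_zero]
    exact zero_le
  · obtain ⟨a, ha⟩ := id_goodExp hS o
    exact General.id_general ⟨⟨K, N, hS⟩, ha⟩ hf

/-- **ID1** -/
theorem id_sobolev_iff (hS : Std m K N) : Sobolev m f ↔ MemLp f 2 m ∧ cheegerEnergy m f < ∞ :=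
  ⟨fun hf => ⟨hf.1, (id_energy_le hS hf).trans_lt ENNReal.ofReal_lt_top⟩,
    fun h => (Easy.id_easy hS.finite (id_rs_inst hS.finite) h.1 h.2).1⟩

/-- **ID2** -/
theorem id_grad_eq (hS : Std m K N) (hf : Sobolev m f) : weakGradient m f =ᵐ[m] rs_slope m f :=
  (Easy.id_of_energy_le hS.finite (id_rs_inst hS.finite) hf (id_energy_le hS hf)).1

/-- **ID3** -/
theorem id_cheeger_eq' (hS : Std m K N) (hf : Sobolev m f) :
    cheegerEnergy m f = ENNReal.ofReal (1 / 2 * ∫ x, weakGradient m f x ^ 2 ∂m) :=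
  (Easy.id_of_energy_le hS.finite (id_rs_inst hS.finite) hf (id_energy_le hS hf)).2

/-- **ID3** -/
theorem id_cheeger_eq (hS : Std m K N) (hf : Sobolev m f) :
    cheegerEnergy m f = ENNReal.ofReal (energy m f / 2) := by
  rw [id_cheeger_eq' hS hf]
  congr 1
  show 1 / 2 * ∫ x, weakGradient m f x ^ 2 ∂m = (∫ x, weakGradient m f x ^ 2 ∂m) / 2
  ring

theorem id_cheeger_toReal (hS : Std m K N) (hf : Sobolev m f) : (cheegerEnergy m f).toReal = energy m f / 2 := by
  rw [id_cheeger_eq hS hf, ENNReal.toReal_ofReal]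
  have : 0 ≤ ∫ x, weakGradient m f x ^ 2 ∂m := integral_nonneg fun x => sq_nonneg _
  show 0 ≤ (∫ x, weakGradient m f x ^ 2 ∂m) / 2
  positivity

end Claimed.Agent.R210.ID.Ifc
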